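import Mathlib

/-!
Definitions for the continuum radial pair potential question (P171).
-/

open MeasureTheory

namespace Vale.Agent.P171

/-- Three dimensional Euclidean space. -/
abbrev E3 : Type := EuclideanSpace ℝ (Fin 3)

/-- The cube `[0,L]^3`. -/
def box (L : ℝ) : Set E3 := {x | ∀ k, x k ∈ Set.Icc 0 L}

/-- The pair energy `U_N(x) = Σ_{i<j} φ(|x_i - x_j|)`. -/
noncomputable def pairEnergy (φ : ℝ → ℝ) {N : ℕ} (x : Fin N → E3) : ℝ :=
  ∑ i, ∑ j, if i < j then φ (dist (x i) (x j)) else 0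

/-- The canonical partition function `Z_{L,N}(β)`. -/
noncomputable def canonicalZ (φ : ℝ → ℝ) (β L : ℝ) (N : ℕ) : ℝ :=
  (1 / (N.factorial : ℝ)) *
    ∫ x in Set.univ.pi (fun _ : Fin N => box L), Real.exp (-β * pairEnergy φ x)

/-- The grand canonical partition function `Σ_N z^N Z_{L,N}(β)`. -/
noncomputable def grandZ (φ : ℝ → ℝ) (β L z : ℝ) : ℝ :=
  ∑' N : ℕ, z ^ N * canonicalZ φ β L N

/-- Bounded on every compact interval inside `(0,∞)`. -/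
def LocallyBoundedOnPos (φ : ℝ → ℝ) : Prop :=
  ∀ a b : ℝ, 0 < a → ∃ M : ℝ, ∀ r ∈ Set.Icc a b, |φ r| ≤ M

/-- Stability: `U_N ≥ -B N` for all configurations of distinct points. -/
def IsStable (φ : ℝ → ℝ) : Prop :=
  ∃ B : ℝ, ∀ (N : ℕ) (x : Fin N → E3), Function.Injective x → -B * N ≤ pairEnergy φ x

/-- Temperedness: `φ(r) ≤ C r^(-3-ε)` for all large `r`. -/
def IsTempered (φ : ℝ → ℝ) : Prop :=
  ∃ C ε R₀ : ℝ, 0 < C ∧ 0 < ε ∧ 0 < R₀ ∧ ∀ r, R₀ ≤ r → φ r ≤ C * r ^ (-3 - ε)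

end Vale.Agent.P171
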