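import Mathlib
import Vale.Agent.P171.Defs

/-!
Counting lemmas for configurations of points in cells.
-/

open Finset

namespace Vale.Agent.P171

variable {ι κ κ' : Type*} [Fintype ι] [DecidableEq κ] [DecidableEq κ']

/-- Number of ordered pairs (diagonal included) having the same label. -/
def samePairs (f : ι → κ) : ℝ := ∑ i, ∑ j, if f i = f j then 1 else 0

/-- Number of indices with a given label. -/
def occ (f : ι → κ) (c : κ) : ℝ := ∑ j, if f j = c then 1 else 0

theorem occ_nonneg (f : ι → κ) (c : κ) : 0 ≤ occ f c :=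
  sum_nonneg fun _ _ => by split_ifs <;> norm_num

theorem samePairs_nonneg (f : ι → κ) : 0 ≤ samePairs f :=
  sum_nonneg fun _ _ => sum_nonneg fun _ _ => by split_ifs <;> norm_num

theorem occ_eq_zero (f : ι → κ) {c : κ} (hc : c ∉ univ.image f) : occ f c = 0 := by
  refine sum_eq_zero fun j _ => ?_
  rw [if_neg]
  intro h
  exact hc (mem_image.2 ⟨j, mem_univ _, h⟩)

theorem sum_comp_eq (f : ι → κ) (g : κ → ℝ) :
    ∑ i, g (f i) = ∑ c ∈ univ.image f, occ f c * g c := by
  unfold occ
  simp_rw [sum_mul, ite_mul, one_mul, zero_mul]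
  rw [sum_comm]
  refine sum_congr rfl fun i _ => ?_
  rw [sum_ite_eq, if_pos (mem_image_of_mem _ (mem_univ i))]

theorem samePairs_eq (f : ι → κ) : samePairs f = ∑ c ∈ univ.image f, occ f c ^ 2 := by
  have h : samePairs f = ∑ i, occ f (f i) := by
    refine sum_congr rfl fun i _ => sum_congr rfl fun j _ => ?_
    simp only [eq_comm]
  rw [h, sum_comp_eq]
  simp_rw [sq]

theorem sum_occ (f : ι → κ) : ∑ c ∈ univ.image f, occ f c = Fintype.card ι := by
  have := sum_comp_eq f (fun _ => (1 : ℝ))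
  simpa using this.symm

theorem sum_shift_le (f : ι → κ) (τ : κ → κ) (hτ : Function.Injective τ) :
    (∑ i, ∑ j, if f j = τ (f i) then (1 : ℝ) else 0) ≤ samePairs f := by
  have h : (∑ i, ∑ j, if f j = τ (f i) then (1 : ℝ) else 0) = ∑ i, occ f (τ (f i)) := rfl
  rw [h, sum_comp_eq f (fun c => occ f (τ c)), samePairs_eq]
  have h2 : ∑ c ∈ univ.image f, occ f (τ c) ^ 2 ≤ ∑ c ∈ univ.image f, occ f c ^ 2 := by
    rw [← sum_image (f := fun c => occ f c ^ 2) hτ.injOn]
    calc ∑ c ∈ (univ.image f).image τ, occ f c ^ 2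
        = ∑ c ∈ (univ.image f).image τ ∩ univ.image f, occ f c ^ 2 := by
          symm
          refine sum_subset inter_subset_left fun c hc hc' => ?_
          rw [occ_eq_zero f (fun hh => hc' (mem_inter.2 ⟨hc, hh⟩))]
          norm_num
      _ ≤ _ := sum_le_sum_of_subset_of_nonneg inter_subset_right fun c _ _ => sq_nonneg _
  calc ∑ c ∈ univ.image f, occ f c * occ f (τ c)
      ≤ ∑ c ∈ univ.image f, (occ f c ^ 2 + occ f (τ c) ^ 2) / 2 :=
        sum_le_sum fun c _ => by nlinarith [sq_nonneg (occ f c - occ f (τ c))]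
    _ ≤ ∑ c ∈ univ.image f, occ f c ^ 2 := by
        rw [← sum_div, sum_add_distrib]; linarith

theorem card_sq_le (f : ι → κ) (T : Finset κ) (hT : ∀ i, f i ∈ T) :
    (Fintype.card ι : ℝ) ^ 2 ≤ (T.card : ℝ) * samePairs f := by
  rw [samePairs_eq, ← sum_occ f]
  refine sq_sum_le_card_mul_sum_sq.trans ?_
  refine mul_le_mul_of_nonneg_right ?_ (sum_nonneg fun c _ => sq_nonneg _)
  exact_mod_cast card_le_card (by intro c hc; obtain ⟨i, _, rfl⟩ := mem_image.1 hc; exact hT i)

theorem samePairs_comp_le (f : ι → κ) (g : κ → κ') (M : ℕ)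
    (hM : ∀ q : κ', ∀ T : Finset κ, (∀ c ∈ T, g c = q) → T.card ≤ M) :
    samePairs (g ∘ f) ≤ M * samePairs f := by
  rw [samePairs_eq, samePairs_eq, mul_sum]
  have himg : univ.image (g ∘ f) = (univ.image f).image g := by rw [image_image]
  rw [himg]
  have hocc : ∀ q, occ (g ∘ f) q = ∑ c ∈ (univ.image f).filter (fun c => g c = q), occ f c := by
    intro q
    have h := sum_comp_eq f (fun c => if g c = q then (1 : ℝ) else 0)
    rw [sum_filter]
    refine h.trans ?_
    refine sum_congr rfl fun c _ => ?_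
    simp
  calc ∑ q ∈ (univ.image f).image g, occ (g ∘ f) q ^ 2
      ≤ ∑ q ∈ (univ.image f).image g,
          ∑ c ∈ (univ.image f).filter (fun c => g c = q), (M : ℝ) * occ f c ^ 2 := by
        refine sum_le_sum fun q _ => ?_
        rw [hocc, ← mul_sum]
        refine sq_sum_le_card_mul_sum_sq.trans ?_
        refine mul_le_mul_of_nonneg_right ?_ (sum_nonneg fun c _ => sq_nonneg _)
        exact_mod_cast hM q _ fun c hc => (mem_filter.1 hc).2
    _ = ∑ c ∈ univ.image f, (M : ℝ) * occ f c ^ 2 :=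
        sum_fiberwise_of_maps_to (fun c hc => mem_image_of_mem g hc) _

/-- Cell of a point for the grid of mesh `1/k`. -/
noncomputable def cell (k : ℕ) (x : E3) : Fin 3 → ℤ := fun a => ⌊x a * k⌋

theorem abs_coord_sub_le_dist (x y : E3) (a : Fin 3) : |x a - y a| ≤ dist x y := by
  rw [dist_eq_norm, ← Real.norm_eq_abs]
  exact PiLp.norm_apply_le (x - y) a

theorem cell_one_diff_le {x y : E3} {R : ℕ} (h : dist x y < R) (a : Fin 3) :
    |cell 1 x a - cell 1 y a| ≤ (R : ℤ) := by
  have h1 := (abs_le.1 ((abs_coord_sub_le_dist x y a).trans h.le))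
  simp only [cell, Nat.cast_one, mul_one]
  rw [abs_le]
  constructor
  · have : ⌊y a⌋ ≤ ⌊x a + (R : ℤ)⌋ := Int.floor_le_floor (by push_cast; linarith [h1.1])
    rw [Int.floor_add_intCast] at this
    linarith
  · have : ⌊x a⌋ ≤ ⌊y a + (R : ℤ)⌋ := Int.floor_le_floor (by push_cast; linarith [h1.2])
    rw [Int.floor_add_intCast] at this
    linarith

theorem dist_sq_eq (x y : E3) : dist x y ^ 2 = ∑ a, (x a - y a) ^ 2 := by
  rw [EuclideanSpace.dist_eq, Real.sq_sqrt (sum_nonneg fun a _ => sq_nonneg _)]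
  simp [Real.dist_eq, sq_abs]

theorem dist_sq_le_of_cell_eq {x y : E3} {k : ℕ} (hk : 0 < k) (h : cell k x = cell k y) :
    dist x y ^ 2 ≤ 3 / (k : ℝ) ^ 2 := by
  have hk' : (0 : ℝ) < k := by exact_mod_cast hk
  have hb : ∀ a, (x a - y a) ^ 2 ≤ 1 / (k : ℝ) ^ 2 := by
    intro a
    have h1 : |x a * k - y a * k| < 1 := Int.abs_sub_lt_one_of_floor_eq_floor (congrFun h a)
    rw [le_div_iff₀ (by positivity), ← mul_pow, sub_mul, ← sq_abs]
    exact pow_le_one₀ (abs_nonneg _) h1.le
  rw [dist_sq_eq]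
  calc ∑ a, (x a - y a) ^ 2 ≤ ∑ _a : Fin 3, 1 / (k : ℝ) ^ 2 := sum_le_sum fun a _ => hb a
    _ = 3 / (k : ℝ) ^ 2 := by simp; ring

/-- Pairs closer than an integer `R ≥ 1` are controlled by pairs in a common unit cell. -/
theorem sum_close_le (x : ι → E3) {R : ℕ} (hR : 1 ≤ R) :
    (∑ i, ∑ j, if dist (x i) (x j) < R then (1 : ℝ) else 0)
      ≤ 27 * (R : ℝ) ^ 3 * samePairs (cell 1 ∘ x) := by
  classical
  let V : Finset (Fin 3 → ℤ) := Fintype.piFinset fun _ => Finset.Icc (-(R : ℤ)) R
  have hV : (V.card : ℝ) ≤ 27 * (R : ℝ) ^ 3 := by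
    have : V.card = (2 * R + 1) ^ 3 := by
      simp [V, Int.card_Icc]
      omega
    rw [this]
    push_cast
    have : (2 * (R : ℝ) + 1) ≤ 3 * R := by
      have : (1 : ℝ) ≤ R := by exact_mod_cast hR
      linarith
    calc (2 * (R : ℝ) + 1) ^ 3 ≤ (3 * R) ^ 3 := by gcongr
      _ = 27 * (R : ℝ) ^ 3 := by ring
  calc (∑ i, ∑ j, if dist (x i) (x j) < R then (1 : ℝ) else 0)
      ≤ ∑ i, ∑ j, ∑ v ∈ V, if cell 1 (x j) = cell 1 (x i) + v then (1 : ℝ) else 0 := by
        refine sum_le_sum fun i _ => sum_le_sum fun j _ => ?_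
        split_ifs with hd
        · have hmem : cell 1 (x j) - cell 1 (x i) ∈ V := by
            simp only [V, Fintype.mem_piFinset, Finset.mem_Icc]
            intro a
            have := abs_le.1 (cell_one_diff_le (show dist (x j) (x i) < R by rwa [dist_comm]) a)
            simpa using this
          rw [Finset.sum_eq_single_of_mem _ hmem]
          · simp
          · intro v _ hv
            rw [if_neg]
            intro hh
            exact hv (by rw [hh]; simp)
        · exact sum_nonneg fun v _ => by split_ifs <;> norm_num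
    _ = ∑ v ∈ V, ∑ i, ∑ j, if cell 1 (x j) = cell 1 (x i) + v then (1 : ℝ) else 0 := by
        rw [sum_comm]
        simp_rw [sum_comm (s := V)]
        rw [sum_comm]
    _ ≤ ∑ _v ∈ V, samePairs (cell 1 ∘ x) := sum_le_sum fun v _ =>
        sum_shift_le (cell 1 ∘ x) (fun c => c + v) (add_left_injective v)
    _ ≤ _ := by
        rw [sum_const, nsmul_eq_mul]
        exact mul_le_mul_of_nonneg_right hV (samePairs_nonneg _)

theorem samePairs_refine (x : ι → E3) {k : ℕ} (hk : 0 < k) :
    samePairs (cell 1 ∘ x) ≤ (k : ℝ) ^ 3 * samePairs (cell k ∘ x) := by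
  classical
  have hk' : (0 : ℤ) < k := by exact_mod_cast hk
  let g : (Fin 3 → ℤ) → (Fin 3 → ℤ) := fun c a => c a / (k : ℤ)
  have hg : cell 1 ∘ x = g ∘ (cell k ∘ x) := by
    funext i a
    simp only [Function.comp_apply, g, cell, Nat.cast_one, mul_one]
    rw [← Int.floor_div_natCast, mul_div_cancel_right₀]
    exact_mod_cast hk.ne'
  rw [hg]
  refine (samePairs_comp_le (cell k ∘ x) g (k ^ 3) ?_).trans (by push_cast; rfl)
  intro q T hT
  calc T.card ≤ (Fintype.piFinset fun a => Finset.Ico (q a * k) (q a * k + k)).card := by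
        refine card_le_card fun c hc => ?_
        simp only [Fintype.mem_piFinset, Finset.mem_Ico]
        intro a
        have hq : c a / (k : ℤ) = q a := congrFun (hT c hc) a
        constructor
        · rw [← hq]; exact Int.ediv_mul_le _ hk'.ne'
        · rw [← hq]; exact Int.lt_ediv_add_one_mul_self _ hk' |>.trans_le (le_of_eq (by ring))
    _ = k ^ 3 := by simp [Int.card_Ico]

end Vale.Agent.P171
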