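import Mathlib
import Vale.Agent.P171.Defs
import Vale.Agent.P171.Counting

/-!
The potentials `core - attr c` and their energy bounds.
-/

open Finset

namespace Vale.Agent.P171

/-- The repulsive core `r⁻⁴` on `0 < r < 1`. -/
noncomputable def core (r : ℝ) : ℝ := if 0 < r ∧ r < 1 then 1 / r ^ 4 else 0

/-- Step attraction of range `m + 1`. -/
noncomputable def stepFn (m : ℕ) (r : ℝ) : ℝ := if r < (m : ℝ) + 1 then 1 / ((m : ℝ) + 1) ^ 3 else 0

/-- The attraction with coefficients `c`. -/
noncomputable def attr (c : ℕ → ℝ) (r : ℝ) : ℝ := ∑' m, c m * stepFn m r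

/-- The pair potential with coefficients `c`. -/
noncomputable def potC (c : ℕ → ℝ) (r : ℝ) : ℝ := core r - attr c r

/-- Nonnegative summable coefficients. -/
structure Good (c : ℕ → ℝ) : Prop where
  nonneg : ∀ m, 0 ≤ c m
  summable : Summable c

theorem core_nonneg (r : ℝ) : 0 ≤ core r := by
  unfold core; split_ifs <;> positivity

theorem core_eq_zero {r : ℝ} (h : 1 ≤ r) : core r = 0 := by
  rw [core, if_neg]; intro h'; linarith [h'.2]

theorem stepFn_nonneg (m : ℕ) (r : ℝ) : 0 ≤ stepFn m r := by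
  unfold stepFn; split_ifs <;> positivity

theorem stepFn_le_one (m : ℕ) (r : ℝ) : stepFn m r ≤ 1 := by
  unfold stepFn
  split_ifs
  · rw [div_le_one (by positivity)]
    exact one_le_pow₀ (by linarith [(Nat.cast_nonneg m : (0:ℝ) ≤ m)])
  · exact zero_le_one

theorem stepFn_anti (m : ℕ) : Antitone (stepFn m) := by
  intro r s hrs
  unfold stepFn
  split_ifs with h1 h2 h2
  · rfl
  · exact absurd (hrs.trans_lt h1) h2
  · positivity
  · rfl

namespace Good

variable {c : ℕ → ℝ} (hc : Good c)
include hc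

theorem summable_step (r : ℝ) : Summable fun m => c m * stepFn m r :=
  hc.summable.of_nonneg_of_le (fun m => mul_nonneg (hc.nonneg m) (stepFn_nonneg m r))
    fun m => mul_le_of_le_one_right (hc.nonneg m) (stepFn_le_one m r)

theorem attr_nonneg (r : ℝ) : 0 ≤ attr c r :=
  tsum_nonneg fun m => mul_nonneg (hc.nonneg m) (stepFn_nonneg m r)

theorem attr_le (r : ℝ) : attr c r ≤ ∑' m, c m :=
  (hc.summable_step r).tsum_le_tsum
    (fun m => mul_le_of_le_one_right (hc.nonneg m) (stepFn_le_one m r)) hc.summable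

theorem attr_anti : Antitone (attr c) := fun r s h =>
  (hc.summable_step s).tsum_le_tsum
    (fun m => mul_le_mul_of_nonneg_left (stepFn_anti m h) (hc.nonneg m)) (hc.summable_step r)

theorem potC_le_zero {r : ℝ} (h : 1 ≤ r) : potC c r ≤ 0 := by
  rw [potC, core_eq_zero h]; linarith [hc.attr_nonneg r]

end Good

theorem core_measurable : Measurable core := by
  unfold core
  exact Measurable.ite ((measurableSet_Ioi (a := (0:ℝ))).inter (measurableSet_Iio (a := (1:ℝ))))
    ((measurable_id.pow_const 4).const_div 1) measurable_const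

theorem potC_measurable {c : ℕ → ℝ} (hc : Good c) : Measurable (potC c) :=
  core_measurable.sub hc.attr_anti.measurable

/-- Half the sum over ordered pairs of distinct indices. -/
noncomputable def energy {ι : Type*} [Fintype ι] [DecidableEq ι] (w : E3 → E3 → ℝ)
    (x : ι → E3) : ℝ :=
  (∑ i, ∑ j, if i = j then 0 else w (x i) (x j)) / 2

/-- A radial pair interaction. -/
noncomputable def radial (φ : ℝ → ℝ) : E3 → E3 → ℝ := fun a b => φ (dist a b)

theorem energy_radial_eq_pairEnergy (φ : ℝ → ℝ) {N : ℕ} (x : Fin N → E3) :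
    energy (radial φ) x = pairEnergy φ x := by
  have h : ∀ i j : Fin N, (if i = j then 0 else radial φ (x i) (x j)) =
      (if i < j then φ (dist (x i) (x j)) else 0) +
        (if j < i then φ (dist (x j) (x i)) else 0) := by
    intro i j
    rcases lt_trichotomy i j with h | h | h
    · simp [h, h.ne, h.not_gt, radial]
    · simp [h]
    · simp [h, h.ne', h.not_gt, radial, dist_comm]
  unfold energy pairEnergy
  simp_rw [h, sum_add_distrib]
  rw [sum_comm (f := fun i j => if j < i then φ (dist (x j) (x i)) else 0)]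
  ring

section bounds

variable {ι : Type*} [Fintype ι] [DecidableEq ι]

theorem energy_sub (v w : E3 → E3 → ℝ) (x : ι → E3) :
    energy (fun a b => v a b - w a b) x = energy v x - energy w x := by
  unfold energy
  rw [← sub_div, ← sum_sub_distrib]
  congr 1
  refine sum_congr rfl fun i _ => ?_
  rw [← sum_sub_distrib]
  refine sum_congr rfl fun j _ => ?_
  split_ifs <;> ring

theorem energy_mono {v w : E3 → E3 → ℝ} (x : ι → E3)
    (h : ∀ i j, i ≠ j → v (x i) (x j) ≤ w (x i) (x j)) : energy v x ≤ energy w x := by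
  unfold energy
  refine div_le_div_of_nonneg_right (sum_le_sum fun i _ => sum_le_sum fun j _ => ?_) (by norm_num)
  split_ifs with hij
  · rfl
  · exact h i j hij

theorem sum_step_le (x : ι → E3) (m : ℕ) :
    (∑ i, ∑ j, if i = j then 0 else stepFn m (dist (x i) (x j)))
      ≤ 27 * samePairs (cell 1 ∘ x) := by
  have hR : (0 : ℝ) < ((m : ℝ) + 1) ^ 3 := by positivity
  calc (∑ i, ∑ j, if i = j then 0 else stepFn m (dist (x i) (x j)))
      ≤ ∑ i, ∑ j, (1 / ((m : ℝ) + 1) ^ 3) *
          (if dist (x i) (x j) < ((m + 1 : ℕ) : ℝ) then (1 : ℝ) else 0) := by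
        refine sum_le_sum fun i _ => sum_le_sum fun j _ => ?_
        push_cast
        unfold stepFn
        split_ifs <;> first | positivity | (rw [mul_one]) | (rw [mul_zero])
    _ = (1 / ((m : ℝ) + 1) ^ 3) *
          ∑ i, ∑ j, (if dist (x i) (x j) < ((m + 1 : ℕ) : ℝ) then (1 : ℝ) else 0) := by
        simp_rw [mul_sum]
    _ ≤ (1 / ((m : ℝ) + 1) ^ 3) * (27 * ((m + 1 : ℕ) : ℝ) ^ 3 * samePairs (cell 1 ∘ x)) :=
        mul_le_mul_of_nonneg_left (sum_close_le x (Nat.le_add_left 1 m)) (by positivity)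
    _ = 27 * samePairs (cell 1 ∘ x) := by push_cast; field_simp

theorem energy_attr_eq_tsum {c : ℕ → ℝ} (hc : Good c) (x : ι → E3) :
    energy (radial (attr c)) x =
      ∑' m, c m * energy (radial (stepFn m)) x := by
  have hs : ∀ i j : ι, Summable fun m =>
      if i = j then 0 else c m * stepFn m (dist (x i) (x j)) := by
    intro i j
    split_ifs
    · exact summable_zero
    · exact hc.summable_step _
  have h1 : ∀ i j : ι, (if i = j then 0 else radial (attr c) (x i) (x j)) =
      ∑' m, (if i = j then 0 else c m * stepFn m (dist (x i) (x j))) := by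
    intro i j
    split_ifs <;> simp [radial, attr]
  unfold energy
  simp_rw [h1]
  rw [sum_congr rfl fun i _ => (Summable.tsum_finsetSum fun j _ => hs i j).symm,
    ← Summable.tsum_finsetSum fun i _ => summable_sum fun j _ => hs i j, ← tsum_div_const]
  refine tsum_congr fun m => ?_
  rw [← mul_div_assoc, mul_sum]
  congr 1
  refine sum_congr rfl fun i _ => ?_
  rw [mul_sum]
  refine sum_congr rfl fun j _ => ?_
  split_ifs <;> simp [radial]

theorem energy_step_nonneg (x : ι → E3) (m : ℕ) : 0 ≤ energy (radial (stepFn m)) x := by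
  refine div_nonneg (sum_nonneg fun i _ => sum_nonneg fun j _ => ?_) (by norm_num)
  split_ifs
  · rfl
  · exact stepFn_nonneg _ _

theorem energy_step_le (x : ι → E3) (m : ℕ) :
    energy (radial (stepFn m)) x ≤ 27 / 2 * samePairs (cell 1 ∘ x) := by
  have := sum_step_le x m
  unfold energy radial
  linarith

theorem energy_attr_le {c : ℕ → ℝ} (hc : Good c) (x : ι → E3) :
    energy (radial (attr c)) x ≤ (∑' m, c m) * (27 / 2 * samePairs (cell 1 ∘ x)) := by
  rw [energy_attr_eq_tsum hc, ← tsum_mul_right]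
  have hs : Summable fun m => c m * (27 / 2 * samePairs (cell 1 ∘ x)) :=
    hc.summable.mul_right _
  exact Summable.tsum_le_tsum
    (fun m => mul_le_mul_of_nonneg_left (energy_step_le x m) (hc.nonneg m))
    (hs.of_nonneg_of_le (fun m => mul_nonneg (hc.nonneg m) (energy_step_nonneg x m))
      (fun m => mul_le_mul_of_nonneg_left (energy_step_le x m) (hc.nonneg m))) hs

theorem energy_core_ge (x : ι → E3) (hx : Function.Injective x) {k : ℕ} (hk : 2 ≤ k) :
    (k : ℝ) / 18 * samePairs (cell 1 ∘ x) - (k : ℝ) ^ 4 * Fintype.card ι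
      ≤ energy (radial core) x := by
  have hk2 : (2 : ℝ) ≤ k := by exact_mod_cast hk
  have hk0 : 0 < k := by omega
  have hk4 : (0 : ℝ) ≤ (k : ℝ) ^ 4 := by positivity
  have hpair : ∀ i j, ((k : ℝ) ^ 4 / 9) * ((if cell k (x i) = cell k (x j) then (1 : ℝ) else 0)
      - (if i = j then (1 : ℝ) else 0)) ≤ (if i = j then 0 else radial core (x i) (x j)) := by
    intro i j
    by_cases hij : i = j
    · simp [hij]
    by_cases hc : cell k (x i) = cell k (x j)
    · simp only [hij, hc, if_true, if_false, sub_zero, mul_one]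
      have hd : 0 < dist (x i) (x j) := dist_pos.2 (hx.ne hij)
      have h3 := dist_sq_le_of_cell_eq hk0 hc
      have hd1 : dist (x i) (x j) < 1 := by
        have : (3 : ℝ) / (k : ℝ) ^ 2 < 1 := by rw [div_lt_one (by positivity)]; nlinarith
        nlinarith
      rw [radial, core, if_pos ⟨hd, hd1⟩, div_le_div_iff₀ (by norm_num) (by positivity)]
      have h4 : dist (x i) (x j) ^ 4 ≤ 9 / (k : ℝ) ^ 4 := by
        calc dist (x i) (x j) ^ 4 = (dist (x i) (x j) ^ 2) ^ 2 := by ring
          _ ≤ (3 / (k : ℝ) ^ 2) ^ 2 := by gcongr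
          _ = 9 / (k : ℝ) ^ 4 := by ring
      rw [le_div_iff₀ (by positivity)] at h4
      linarith
    · simp only [hij, hc, if_false, sub_zero, mul_zero]
      exact core_nonneg _
  have h := sum_le_sum (s := univ) fun i _ => sum_le_sum (s := univ) fun j _ => hpair i j
  simp_rw [← mul_sum, sum_sub_distrib] at h
  simp only [sum_ite_eq, mem_univ, if_true, sum_const, card_univ, nsmul_eq_mul, mul_one] at h
  have hS : samePairs (cell k ∘ x) =
      ∑ i, ∑ j, if cell k (x i) = cell k (x j) then (1 : ℝ) else 0 := rfl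
  rw [← hS] at h
  have hr := samePairs_refine x hk0
  unfold energy
  rw [le_div_iff₀ (by norm_num)]
  refine le_trans ?_ h
  nlinarith [samePairs_nonneg (cell k ∘ x), (Nat.cast_nonneg (Fintype.card ι) : (0:ℝ) ≤ _)]

theorem energy_radial_potC {c : ℕ → ℝ} (x : ι → E3) :
    energy (radial (potC c)) x = energy (radial core) x - energy (radial (attr c)) x :=
  energy_sub _ _ x

/-- Superstability, uniform in the coefficient norm. -/
theorem energy_potC_ge (K : ℝ) (A : ℝ) : ∃ D : ℝ, 0 ≤ D ∧
    ∀ {ι : Type} [Fintype ι] [DecidableEq ι] (c : ℕ → ℝ), Good c → (∑' m, c m) ≤ K →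
      ∀ x : ι → E3, Function.Injective x →
        A * samePairs (cell 1 ∘ x) - D * Fintype.card ι ≤ energy (radial (potC c)) x := by
  let k : ℕ := max 2 ⌈18 * (A + 27 / 2 * K)⌉₊
  refine ⟨(k : ℝ) ^ 4, by positivity, ?_⟩
  intro ι _ _ c hc hcK x hx
  have h1 := energy_core_ge x hx (le_max_left 2 ⌈18 * (A + 27 / 2 * K)⌉₊)
  have h2 := energy_attr_le hc x
  have hk : 18 * (A + 27 / 2 * K) ≤ (k : ℝ) :=
    (Nat.le_ceil _).trans (by exact_mod_cast le_max_right _ _)
  have hS := samePairs_nonneg (cell 1 ∘ x)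
  rw [energy_radial_potC]
  change (k : ℝ) / 18 * _ - (k : ℝ) ^ 4 * _ ≤ _ at h1
  nlinarith [mul_le_mul_of_nonneg_right hcK (mul_nonneg (by norm_num : (0:ℝ) ≤ 27 / 2) hS),
    mul_le_mul_of_nonneg_right hk hS]

end bounds

end Vale.Agent.P171
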