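import Mathlib
import Vale.Agent.P171.Potential

/-!
The grand canonical partition function as an extended nonnegative real and its product property.
-/

open MeasureTheory Finset
open scoped ENNReal

namespace Vale.Agent.P171

/-- `∫_{A^ι} exp(-energy)`. -/
noncomputable def Q (w : E3 → E3 → ℝ) (A : Set E3) (ι : Type) [Fintype ι] [DecidableEq ι] : ℝ≥0∞ :=
  ∫⁻ x in Set.univ.pi (fun _ : ι => A), ENNReal.ofReal (Real.exp (-energy w x))

/-- Grand canonical partition function at chemical potential `μ`. -/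
noncomputable def Xi (w : E3 → E3 → ℝ) (μ : ℝ) (A : Set E3) : ℝ≥0∞ :=
  ∑' N : ℕ, ENNReal.ofReal (Real.exp (μ * N) / N.factorial) * Q w A (Fin N)

theorem measurable_energy {ι : Type} [Fintype ι] [DecidableEq ι] {w : E3 → E3 → ℝ}
    (hw : Measurable fun p : E3 × E3 => w p.1 p.2) :
    Measurable fun x : ι → E3 => energy w x := by
  unfold energy
  refine Measurable.div_const (Finset.measurable_sum _ fun i _ => Finset.measurable_sum _ fun j _ => ?_) _
  by_cases h : i = j
  · simp [h]
  · simp only [h, if_false]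
    exact Measurable.comp (g := fun p : E3 × E3 => w p.1 p.2) (f := fun x : ι → E3 => (x i, x j)) hw
      ((measurable_pi_apply i).prodMk (measurable_pi_apply j))

theorem energy_congr_equiv {ι κ : Type} [Fintype ι] [DecidableEq ι] [Fintype κ] [DecidableEq κ]
    (e : ι ≃ κ) (w : E3 → E3 → ℝ) (x : κ → E3) : energy w (x ∘ e) = energy w x := by
  unfold energy
  congr 1
  refine (Finset.sum_congr rfl fun i _ => ?_).trans
    (e.sum_comp fun i => ∑ j, if i = j then 0 else w (x i) (x j))
  refine (Finset.sum_congr rfl fun j _ => ?_).trans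
    (e.sum_comp fun j => if e i = j then 0 else w (x (e i)) (x j))
  simp

theorem Q_congr {ι κ : Type} {_ : Fintype ι} {_ : DecidableEq ι} [Fintype κ] [DecidableEq κ]
    (e : ι ≃ κ) (w : E3 → E3 → ℝ) (A : Set E3) : Q w A ι = Q w A κ := by
  have hmp := (volume_measurePreserving_piCongrLeft (fun _ : κ => E3) e)
  unfold Q
  rw [← hmp.setLIntegral_comp_preimage_emb (MeasurableEquiv.measurableEmbedding _)
    (fun x => ENNReal.ofReal (Real.exp (-energy w x))) (Set.univ.pi fun _ : κ => A)]
  have hval : ∀ x : ι → E3, MeasurableEquiv.piCongrLeft (fun _ : κ => E3) e x = x ∘ e.symm := by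
    intro x; funext i
    obtain ⟨a, rfl⟩ := e.surjective i
    simp [MeasurableEquiv.piCongrLeft_apply_apply]
  congr 1
  · congr 1
    ext x
    simp only [Set.mem_preimage, hval, Set.mem_pi, Set.mem_univ, true_implies, Function.comp_apply]
    exact ⟨fun h i => h _, fun h a => by simpa using h (e a)⟩
  · funext x
    rw [hval, energy_congr_equiv e.symm]

theorem Q_zero (w : E3 → E3 → ℝ) (A : Set E3) : Q w A (Fin 0) = 1 := by
  simp [Q, energy, volume_pi_pi]

theorem one_le_Xi (w : E3 → E3 → ℝ) (μ : ℝ) (A : Set E3) : 1 ≤ Xi w μ A := by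
  refine le_trans ?_ (ENNReal.le_tsum 0)
  simp [Q_zero]

theorem Xi_mono_set (w : E3 → E3 → ℝ) (μ : ℝ) {A B : Set E3} (h : A ⊆ B) :
    Xi w μ A ≤ Xi w μ B :=
  ENNReal.tsum_le_tsum fun _ => mul_le_mul_right
    (lintegral_mono_set (Set.pi_mono fun _ _ => h)) _

theorem Xi_empty (w : E3 → E3 → ℝ) (μ : ℝ) : Xi w μ ∅ = 1 := by
  rw [Xi, tsum_eq_single 0]
  · simp [Q_zero]
  · intro N hN
    have : Nonempty (Fin N) := ⟨⟨0, Nat.pos_of_ne_zero hN⟩⟩
    have he : (Set.univ.pi fun _ : Fin N => (∅ : Set E3)) = ∅ :=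
      Set.univ_pi_eq_empty (i := Classical.arbitrary _) rfl
    simp [Q, he]

theorem Q_split {w : E3 → E3 → ℝ} (hw : Measurable fun p : E3 × E3 => w p.1 p.2)
    {A B : Set E3} (hA : MeasurableSet A) (hB : MeasurableSet B)
    (hz : ∀ a ∈ A, ∀ b ∈ B, w a b = 0 ∧ w b a = 0)
    {ι : Type} [Fintype ι] [DecidableEq ι] (s : ι → Prop) [DecidablePred s] :
    (∫⁻ x in Set.univ.pi (fun i : ι => if s i then A else B),
        ENNReal.ofReal (Real.exp (-energy w x)))
      = Q w A {i // s i} * Q w B {i // ¬ s i} := by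
  have hmp := volume_preserving_piEquivPiSubtypeProd (fun _ : ι => E3) s
  let SA := Set.univ.pi (fun _ : {i // s i} => A)
  let SB := Set.univ.pi (fun _ : {i // ¬ s i} => B)
  let g := fun y : {i // s i} → E3 => ENNReal.ofReal (Real.exp (-energy w y))
  let h := fun y : {i // ¬ s i} → E3 => ENNReal.ofReal (Real.exp (-energy w y))
  have hsplit := hmp.setLIntegral_comp_preimage_emb (MeasurableEquiv.measurableEmbedding _)
    (fun p => g p.1 * h p.2) (SA ×ˢ SB)
  have hpre : (MeasurableEquiv.piEquivPiSubtypeProd (fun _ : ι => E3) s) ⁻¹'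
      (SA ×ˢ SB) = Set.univ.pi (fun i : ι => if s i then A else B) := by
    ext x
    simp only [Set.mem_preimage, Set.mem_prod, SA, SB, Set.mem_pi, Set.mem_univ, true_implies]
    constructor
    · rintro ⟨h1, h2⟩ i
      by_cases hi : s i
      · simpa [hi] using h1 ⟨i, hi⟩
      · simpa [hi] using h2 ⟨i, hi⟩
    · intro hx
      exact ⟨fun i => by simpa [i.2] using hx i.1, fun i => by simpa [i.2] using hx i.1⟩
  have hmg : Measurable g := ((measurable_energy hw).neg.exp).ennreal_ofReal
  have hmh : Measurable h := ((measurable_energy hw).neg.exp).ennreal_ofReal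
  have hprod : (∫⁻ p in SA ×ˢ SB, g p.1 * h p.2) = Q w A {i // s i} * Q w B {i // ¬ s i} := by
    rw [Measure.volume_eq_prod, ← Measure.prod_restrict,
      lintegral_prod_mul hmg.aemeasurable hmh.aemeasurable]
    rfl
  refine Eq.trans ?_ (hsplit.trans hprod)
  rw [hpre]
  refine setLIntegral_congr_fun (MeasurableSet.univ_pi fun i => by split_ifs <;> assumption) ?_
  intro x hx
  simp only [Set.mem_pi, Set.mem_univ, true_implies] at hx
  simp only [g, h]
  rw [← ENNReal.ofReal_mul (Real.exp_nonneg _), ← Real.exp_add]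
  congr 2
  show -energy w x = -energy w (fun i : {i // s i} => x i) + -energy w (fun i : {i // ¬ s i} => x i)
  unfold energy
  have cross1 : ∀ i : {i // s i}, ∀ j : {j // ¬ s j},
      (if (i : ι) = j then 0 else w (x i) (x j)) = 0 := by
    intro i j
    have h1 : x i ∈ A := by simpa [i.2] using hx i.1
    have h2 : x j ∈ B := by simpa [j.2] using hx j.1
    simp [(hz _ h1 _ h2).1]
  have cross2 : ∀ i : {i // ¬ s i}, ∀ j : {j // s j},
      (if (i : ι) = j then 0 else w (x i) (x j)) = 0 := by
    intro i j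
    have h1 : x j ∈ A := by simpa [j.2] using hx j.1
    have h2 : x i ∈ B := by simpa [i.2] using hx i.1
    simp [(hz _ h1 _ h2).2]
  rw [← Fintype.sum_subtype_add_sum_subtype s]
  simp_rw [← Fintype.sum_subtype_add_sum_subtype s
    (fun j => if (_ : ι) = j then 0 else w _ (x j))]
  simp only [cross1, cross2, Finset.sum_const_zero, add_zero, zero_add, Subtype.coe_inj]
  ring

theorem iUnion_pick (ι : Type) [Fintype ι] [DecidableEq ι] {A B : Set E3} :
    (Set.univ.pi fun _ : ι => A ∪ B) =
      ⋃ s : Finset ι, Set.univ.pi (fun i : ι => if i ∈ s then A else B) := by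
  classical
  ext x
  simp only [Set.mem_pi, Set.mem_univ, true_implies, Set.mem_iUnion]
  constructor
  · intro hx
    refine ⟨Finset.univ.filter (fun i => x i ∈ A), fun i => ?_⟩
    by_cases hi : x i ∈ A
    · simp [hi]
    · simpa [hi] using (hx i).resolve_left hi
  · rintro ⟨s, hs⟩ i
    have := hs i
    by_cases hi : i ∈ s
    · left; simpa [hi] using this
    · right; simpa [hi] using this

theorem Q_union {w : E3 → E3 → ℝ} (hw : Measurable fun p : E3 × E3 => w p.1 p.2)
    {A B : Set E3} (hA : MeasurableSet A) (hB : MeasurableSet B) (hAB : Disjoint A B)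
    (hz : ∀ a ∈ A, ∀ b ∈ B, w a b = 0 ∧ w b a = 0) (N : ℕ) :
    Q w (A ∪ B) (Fin N) = ∑ k ∈ Finset.range (N + 1),
      (N.choose k : ℝ≥0∞) * (Q w A (Fin k) * Q w B (Fin (N - k))) := by
  classical
  conv_lhs => rw [Q, iUnion_pick]
  rw [lintegral_iUnion (fun s => MeasurableSet.univ_pi fun i => by split_ifs <;> assumption)]
  · rw [tsum_fintype]
    rw [Finset.sum_congr rfl (g := fun s : Finset (Fin N) =>
      Q w A (Fin s.card) * Q w B (Fin (N - s.card))) fun s _ => ?_]
    rotate_left
    · refine (Q_split hw hA hB hz (fun i => i ∈ s)).trans (congrArg₂ (· * ·) ?_ ?_)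
      · exact Q_congr (Fintype.equivFinOfCardEq (by rw [Fintype.card_subtype]; simp)) w A
      · exact Q_congr (Fintype.equivFinOfCardEq (by
          rw [Fintype.card_subtype_compl]; simp [Fintype.card_subtype])) w B
    rw [← Finset.powerset_univ, Finset.sum_powerset_apply_card
      (f := fun k => Q w A (Fin k) * Q w B (Fin (N - k)))]
    simp [nsmul_eq_mul]
  · intro s t hst
    rw [Function.onFun, Set.disjoint_left]
    intro x hs ht
    apply hst
    ext i
    have h1 := hs i trivial
    have h2 := ht i trivial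
    by_cases hi : i ∈ s <;> by_cases hi' : i ∈ t <;> simp [hi, hi'] at h1 h2 ⊢
    · exact Set.disjoint_left.1 hAB h1 h2
    · exact Set.disjoint_left.1 hAB h2 h1

theorem Xi_union {w : E3 → E3 → ℝ} (hw : Measurable fun p : E3 × E3 => w p.1 p.2)
    {A B : Set E3} (hA : MeasurableSet A) (hB : MeasurableSet B) (hAB : Disjoint A B)
    (hz : ∀ a ∈ A, ∀ b ∈ B, w a b = 0 ∧ w b a = 0) (μ : ℝ) :
    Xi w μ (A ∪ B) = Xi w μ A * Xi w μ B := by
  let a : ℕ → ℝ≥0∞ := fun k => ENNReal.ofReal (Real.exp (μ * k) / k.factorial) * Q w A (Fin k)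
  let b : ℕ → ℝ≥0∞ := fun k => ENNReal.ofReal (Real.exp (μ * k) / k.factorial) * Q w B (Fin k)
  have hprod : (∑' k, a k) * (∑' k, b k) =
      ∑' n, ∑ p ∈ Finset.HasAntidiagonal.antidiagonal n, a p.1 * b p.2 := by
    simp_rw [← ENNReal.tsum_mul_right, ← ENNReal.tsum_mul_left]
    rw [← ENNReal.tsum_prod (f := fun i j => a i * b j),
      ← Finset.HasAntidiagonal.sigmaAntidiagonalEquivProd.tsum_eq (fun p : ℕ × ℕ => a p.1 * b p.2),
      ENNReal.tsum_sigma']
    refine tsum_congr fun n => ?_
    rw [tsum_fintype]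
    exact Finset.sum_coe_sort (Finset.HasAntidiagonal.antidiagonal n) (fun p => a p.1 * b p.2)
  rw [show Xi w μ A = ∑' k, a k from rfl, show Xi w μ B = ∑' k, b k from rfl, hprod]
  unfold Xi
  refine tsum_congr fun N => ?_
  rw [Q_union hw hA hB hAB hz, Finset.Nat.sum_antidiagonal_eq_sum_range_succ_mk, Finset.mul_sum]
  refine Finset.sum_congr rfl fun k hk => ?_
  have hkN : k ≤ N := Nat.lt_succ_iff.1 (Finset.mem_range.1 hk)
  simp only [a, b]
  have e : ENNReal.ofReal (Real.exp (μ * N) / N.factorial) * (N.choose k : ℝ≥0∞) =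
      ENNReal.ofReal (Real.exp (μ * k) / k.factorial) *
        ENNReal.ofReal (Real.exp (μ * (N - k : ℕ)) / (N - k).factorial) := by
    rw [← ENNReal.ofReal_natCast, ← ENNReal.ofReal_mul (by positivity),
      ← ENNReal.ofReal_mul (by positivity)]
    congr 1
    rw [Nat.cast_choose ℝ hkN, div_mul_div_comm (Real.exp (μ * k)), ← Real.exp_add, Nat.cast_sub hkN]
    rw [show μ * k + μ * (N - k : ℝ) = μ * N by ring]
    field_simp
  rw [← mul_assoc, e]
  ring

theorem Xi_biUnion {κ : Type*} {w : E3 → E3 → ℝ} (hw : Measurable fun p : E3 × E3 => w p.1 p.2)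
    (P : Finset κ) (A : κ → Set E3) (hA : ∀ q ∈ P, MeasurableSet (A q))
    (hd : (P : Set κ).PairwiseDisjoint A)
    (hz : ∀ q ∈ P, ∀ r ∈ P, q ≠ r → ∀ a ∈ A q, ∀ b ∈ A r, w a b = 0) (μ : ℝ) :
    Xi w μ (⋃ q ∈ P, A q) = ∏ q ∈ P, Xi w μ (A q) := by
  classical
  induction P using Finset.induction_on with
  | empty => simp [Xi_empty]
  | @insert q P hq ih =>
    rw [Finset.set_biUnion_insert, Finset.prod_insert hq,
      Xi_union hw (hA q (Finset.mem_insert_self q P))
        (Finset.measurableSet_biUnion P fun r hr => hA r (Finset.mem_insert_of_mem hr))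
        ?_ ?_ μ,
      ih (fun r hr => hA r (Finset.mem_insert_of_mem hr))
        (hd.subset (by simp))
        (fun r hr r' hr' => hz r (Finset.mem_insert_of_mem hr) r' (Finset.mem_insert_of_mem hr'))]
    · simp only [Set.disjoint_iUnion_right]
      intro r hr
      exact hd (by simp) (by simp [show r ∈ P from hr]) (fun h => hq (h ▸ hr))
    · intro a ha b hb
      simp only [Set.mem_iUnion] at hb
      obtain ⟨r, hr, hb⟩ := hb
      have hne : q ≠ r := fun h => hq (h ▸ hr)
      exact ⟨hz q (Finset.mem_insert_self q P) r (Finset.mem_insert_of_mem hr) hne a ha b hb,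
        hz r (Finset.mem_insert_of_mem hr) q (Finset.mem_insert_self q P) hne.symm b hb a ha⟩

theorem Q_translate (w : E3 → E3 → ℝ) (hw : ∀ v a b, w (a + v) (b + v) = w a b) (v : E3)
    (A : Set E3) (ι : Type) [Fintype ι] [DecidableEq ι] :
    Q w ((fun a => a + v) '' A) ι = Q w A ι := by
  have hmp := measurePreserving_add_right (volume : Measure (ι → E3)) (fun _ => v)
  have h := hmp.setLIntegral_comp_preimage_emb (measurableEmbedding_addRight _)
    (fun x => ENNReal.ofReal (Real.exp (-energy w x))) (Set.univ.pi fun _ : ι => (fun a => a + v) '' A)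
  unfold Q
  rw [← h]
  congr 1
  · congr 1
    ext x
    simp [Set.mem_pi]
  · funext x
    have : energy w (x + fun _ => v) = energy w x := by
      unfold energy
      simp only [Pi.add_apply, hw]
    rw [this]

theorem Xi_translate (w : E3 → E3 → ℝ) (hw : ∀ v a b, w (a + v) (b + v) = w a b) (v : E3)
    (μ : ℝ) (A : Set E3) : Xi w μ ((fun a => a + v) '' A) = Xi w μ A := by
  simp only [Xi, Q_translate w hw v A]

theorem ae_injective (ι : Type) [Fintype ι] :
    ∀ᵐ x : ι → E3, Function.Injective x := by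
  classical
  have h : ∀ i j : ι, ∀ᵐ x : ι → E3, x i = x j → i = j := by
    intro i j
    by_cases hij : i = j
    · exact Filter.Eventually.of_forall fun _ _ => hij
    let S : Submodule ℝ (ι → E3) :=
      LinearMap.ker ((LinearMap.proj i : (ι → E3) →ₗ[ℝ] E3) - LinearMap.proj j)
    have hS : S ≠ ⊤ := by
      intro htop
      have hx : Pi.single i (EuclideanSpace.single (0 : Fin 3) (1 : ℝ)) ∈ S := htop ▸ trivial
      simp [S, Pi.single_eq_of_ne (Ne.symm hij)] at hx
    have : (volume : Measure (ι → E3)) {x | x i = x j} = 0 := by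
      have heq : {x : ι → E3 | x i = x j} = (S : Set (ι → E3)) := by
        ext x; simp [S, sub_eq_zero]
      rw [heq]
      exact Measure.addHaar_submodule volume S hS
    filter_upwards [compl_mem_ae_iff.2 this] with x hx h
    exact absurd h hx
  filter_upwards [ae_all_iff.2 fun i => ae_all_iff.2 fun j => h i j] with x hx i j
  exact hx i j

theorem Q_le_of_ae_le {ι : Type} [Fintype ι] [DecidableEq ι] {w : E3 → E3 → ℝ} {A : Set E3}
    {b : ℝ}
    (h : ∀ x : ι → E3, Function.Injective x → (∀ i, x i ∈ A) → b ≤ energy w x) :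
    Q w A ι ≤ ENNReal.ofReal (Real.exp (-b)) * volume A ^ Fintype.card ι := by
  unfold Q
  calc ∫⁻ x in Set.univ.pi (fun _ : ι => A), ENNReal.ofReal (Real.exp (-energy w x))
      ≤ ∫⁻ _x in Set.univ.pi (fun _ : ι => A), ENNReal.ofReal (Real.exp (-b)) := by
        refine setLIntegral_mono_ae aemeasurable_const ?_
        filter_upwards [ae_injective ι] with x hx hxA
        exact ENNReal.ofReal_le_ofReal (Real.exp_le_exp.2
          (neg_le_neg (h x hx fun i => hxA i trivial)))
    _ = _ := by
        rw [setLIntegral_const, volume_pi_pi]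
        simp

end Vale.Agent.P171
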