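import Mathlib
import Vale.Agent.P171.Grand

/-!
Existence of the pressure for the potentials `potC c`.
-/

open MeasureTheory Filter Topology
open scoped ENNReal

namespace Vale.Agent.P171

theorem measurableSet_box (L : ℝ) : MeasurableSet (box L) := by
  have : box L = (WithLp.ofLp : E3 → (Fin 3 → ℝ)) ⁻¹' Set.univ.pi (fun _ => Set.Icc 0 L) := by
    ext x; simp only [box, Set.mem_ofPred_eq, Set.mem_preimage, Set.mem_pi, Set.mem_univ, true_implies]
  rw [this]
  exact (PiLp.volume_preserving_ofLp (Fin 3)).measurable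
    (MeasurableSet.univ_pi fun _ => measurableSet_Icc)

theorem volume_box {L : ℝ} (hL : 0 ≤ L) : volume (box L) = ENNReal.ofReal (L ^ 3) := by
  have : box L = (WithLp.ofLp : E3 → (Fin 3 → ℝ)) ⁻¹' Set.univ.pi (fun _ => Set.Icc 0 L) := by
    ext x; simp only [box, Set.mem_ofPred_eq, Set.mem_preimage, Set.mem_pi, Set.mem_univ, true_implies]
  rw [this, (PiLp.volume_preserving_ofLp (Fin 3)).measure_preimage
    (MeasurableSet.univ_pi fun _ => measurableSet_Icc).nullMeasurableSet, volume_pi_pi]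
  simp [Real.volume_Icc, ← ENNReal.ofReal_pow hL]

theorem box_mono {L L' : ℝ} (h : L ≤ L') : box L ⊆ box L' :=
  fun _ hx k => ⟨(hx k).1, (hx k).2.trans h⟩

theorem measurable_radial {φ : ℝ → ℝ} (hφ : Measurable φ) :
    Measurable fun p : E3 × E3 => radial φ p.1 p.2 :=
  hφ.comp (measurable_fst.dist measurable_snd)

theorem radial_add (φ : ℝ → ℝ) (v a b : E3) : radial φ (a + v) (b + v) = radial φ a b := by
  simp [radial]

theorem tsum_ofReal_exp {V b : ℝ} (hV : 0 ≤ V) :
    ∑' N : ℕ, ENNReal.ofReal ((V * Real.exp b) ^ N / N.factorial) =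
      ENNReal.ofReal (Real.exp (V * Real.exp b)) := by
  rw [← ENNReal.ofReal_tsum_of_nonneg (fun N => by positivity) (Real.summable_pow_div_factorial _)]
  congr 1
  rw [Real.exp_eq_exp_ℝ, NormedSpace.exp_eq_tsum_div]

theorem Xi_le_exp {w : E3 → E3 → ℝ} {A : Set E3} {V : ℝ} (hV : 0 ≤ V)
    (hA : volume A = ENNReal.ofReal V) {D : ℝ} (μ : ℝ)
    (h : ∀ (N : ℕ) (x : Fin N → E3), Function.Injective x → (∀ i, x i ∈ A) →
      -(D * N) ≤ energy w x) :
    Xi w μ A ≤ ENNReal.ofReal (Real.exp (V * Real.exp (μ + D))) := by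
  rw [← tsum_ofReal_exp (b := μ + D) hV]
  refine ENNReal.tsum_le_tsum fun N => ?_
  refine (mul_le_mul_right (Q_le_of_ae_le (h N)) _).trans (le_of_eq ?_)
  rw [hA, Fintype.card_fin, ← ENNReal.ofReal_pow hV, ← ENNReal.ofReal_mul (Real.exp_nonneg _),
    ← ENNReal.ofReal_mul (by positivity)]
  congr 1
  rw [mul_pow, ← Real.exp_nat_mul, neg_neg, mul_add, Real.exp_add]
  ring_nf

theorem Xi_anti {w₁ w₂ : E3 → E3 → ℝ} (μ : ℝ) {A : Set E3} (hA : MeasurableSet A)
    (h : ∀ (N : ℕ) (x : Fin N → E3), Function.Injective x → (∀ i, x i ∈ A) →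
      energy w₁ x ≤ energy w₂ x) :
    Xi w₂ μ A ≤ Xi w₁ μ A := by
  refine ENNReal.tsum_le_tsum fun N => mul_le_mul_right ?_ _
  refine setLIntegral_mono_ae' (MeasurableSet.univ_pi fun _ => hA) ?_
  filter_upwards [ae_injective (Fin N)] with x hx hxA
  exact ENNReal.ofReal_le_ofReal (Real.exp_le_exp.2 (neg_le_neg (h N x hx fun i => hxA i trivial)))

theorem Xi_congr {w₁ w₂ : E3 → E3 → ℝ} (μ : ℝ) {A : Set E3} (hA : MeasurableSet A)
    (h : ∀ a ∈ A, ∀ b ∈ A, w₁ a b = w₂ a b) : Xi w₁ μ A = Xi w₂ μ A := by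
  refine tsum_congr fun N => congrArg _ (setLIntegral_congr_fun
    (MeasurableSet.univ_pi fun _ => hA) fun x hx => ?_)
  have : energy w₁ x = energy w₂ x := by
    unfold energy
    congr 1
    refine Finset.sum_congr rfl fun i _ => Finset.sum_congr rfl fun j _ => ?_
    rw [h _ (hx i trivial) _ (hx j trivial)]
  simp only [this]

/-- Keep only the interaction inside one member of a family. -/
noncomputable def within {κ : Type*} (P : Finset κ) (T : κ → Set E3) (w : E3 → E3 → ℝ) :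
    E3 → E3 → ℝ :=
  open Classical in fun a b => if ∃ q ∈ P, a ∈ T q ∧ b ∈ T q then w a b else 0

theorem measurable_within {κ : Type*} (P : Finset κ) (T : κ → Set E3) {w : E3 → E3 → ℝ}
    (hT : ∀ q ∈ P, MeasurableSet (T q)) (hw : Measurable fun p : E3 × E3 => w p.1 p.2) :
    Measurable fun p : E3 × E3 => within P T w p.1 p.2 := by
  classical
  have hS : MeasurableSet (⋃ q ∈ P, T q ×ˢ T q) :=
    Finset.measurableSet_biUnion P fun q hq => (hT q hq).prod (hT q hq)
  have : (fun p : E3 × E3 => within P T w p.1 p.2) =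
      (⋃ q ∈ P, T q ×ˢ T q).indicator (fun p => w p.1 p.2) := by
    funext p
    by_cases h : p ∈ ⋃ q ∈ P, T q ×ˢ T q
    · rw [Set.indicator_of_mem h, within, if_pos (by simpa [and_left_comm, and_assoc] using h)]
    · rw [Set.indicator_of_notMem h, within, if_neg (by simpa [and_left_comm, and_assoc] using h)]
  rw [this]
  exact hw.indicator hS

/-- Product property for an interaction restricted to the members of a disjoint family. -/
theorem Xi_within {κ : Type*} (P : Finset κ) (T : κ → Set E3) {w : E3 → E3 → ℝ}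
    (hT : ∀ q ∈ P, MeasurableSet (T q)) (hd : (P : Set κ).PairwiseDisjoint T)
    (hw : Measurable fun p : E3 × E3 => w p.1 p.2) (μ : ℝ) :
    Xi (within P T w) μ (⋃ q ∈ P, T q) = ∏ q ∈ P, Xi w μ (T q) := by
  classical
  rw [Xi_biUnion (measurable_within P T hT hw) P T hT hd ?_ μ]
  · refine Finset.prod_congr rfl fun q hq => Xi_congr μ (hT q hq) fun a ha b hb => ?_
    rw [within, if_pos ⟨q, hq, ha, hb⟩]
  · intro q hq r hr hqr a ha b hb
    rw [within, if_neg]
    rintro ⟨u, hu, hau, hbu⟩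
    have h1 : q = u := by
      by_contra hne
      exact Set.disjoint_left.1 (hd hq hu hne) ha hau
    have h2 : r = u := by
      by_contra hne
      exact Set.disjoint_left.1 (hd hr hu hne) hb hbu
    exact hqr (h1.trans h2.symm)

variable {c : ℕ → ℝ}

theorem stable_potC (hc : Good c) : ∃ D : ℝ, 0 ≤ D ∧ ∀ (N : ℕ) (x : Fin N → E3),
    Function.Injective x → -(D * N) ≤ energy (radial (potC c)) x := by
  obtain ⟨D, hD, h⟩ := energy_potC_ge (∑' m, c m) 0
  refine ⟨D, hD, fun N x hx => ?_⟩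
  have := h c hc le_rfl x hx
  simp only [Fintype.card_fin] at this
  linarith

/-- `log Ξ` in the box of side `L`. -/
noncomputable def lam (c : ℕ → ℝ) (μ L : ℝ) : ℝ :=
  Real.log (Xi (radial (potC c)) μ (box L)).toReal

theorem Xi_box_bound (hc : Good c) (μ : ℝ) : ∃ K, ∀ L : ℝ, 0 ≤ L →
    Xi (radial (potC c)) μ (box L) ≤ ENNReal.ofReal (Real.exp (L ^ 3 * K)) := by
  obtain ⟨D, _, hD⟩ := stable_potC hc
  exact ⟨Real.exp (μ + D), fun L hL =>
    Xi_le_exp (by positivity) (volume_box hL) μ fun N x hx _ => hD N x hx⟩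

theorem Xi_box_ne_top (hc : Good c) (μ L : ℝ) : Xi (radial (potC c)) μ (box L) ≠ ⊤ := by
  obtain ⟨K, hK⟩ := Xi_box_bound hc μ
  exact ((Xi_mono_set _ μ (box_mono (le_max_left L 0))).trans
    (hK _ (le_max_right L 0))).trans_lt ENNReal.ofReal_lt_top |>.ne

theorem Xi_eq_exp_lam (hc : Good c) (μ L : ℝ) :
    Xi (radial (potC c)) μ (box L) = ENNReal.ofReal (Real.exp (lam c μ L)) := by
  have h1 := one_le_Xi (radial (potC c)) μ (box L)
  have h2 : 1 ≤ (Xi (radial (potC c)) μ (box L)).toReal := by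
    simpa using ENNReal.toReal_mono (Xi_box_ne_top hc μ L) h1
  rw [lam, Real.exp_log (zero_lt_one.trans_le h2), ENNReal.ofReal_toReal (Xi_box_ne_top hc μ L)]

theorem lam_nonneg (hc : Good c) (μ L : ℝ) : 0 ≤ lam c μ L := by
  refine Real.log_nonneg ?_
  simpa using ENNReal.toReal_mono (Xi_box_ne_top hc μ L) (one_le_Xi _ μ (box L))

theorem lam_mono (hc : Good c) (μ : ℝ) : Monotone (lam c μ) := fun L L' h => by
  have := Xi_mono_set (radial (potC c)) μ (box_mono h)
  rw [Xi_eq_exp_lam hc, Xi_eq_exp_lam hc, ENNReal.ofReal_le_ofReal_iff (Real.exp_nonneg _),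
    Real.exp_le_exp] at this
  exact this

theorem lam_superadd (hc : Good c) (μ : ℝ) {m : ℝ} (hm : 0 ≤ m) (k : ℕ) :
    (k : ℝ) ^ 3 * lam c μ m ≤ lam c μ (k * (m + 1)) := by
  classical
  let tr : (Fin 3 → Fin k) → E3 := fun v => WithLp.toLp 2 fun a => (v a : ℝ) * (m + 1)
  let T : (Fin 3 → Fin k) → Set E3 := fun v => (fun a => a + tr v) '' box m
  have hmem : ∀ v a, a ∈ T v → ∀ i, (v i : ℝ) * (m + 1) ≤ a i ∧ a i ≤ (v i : ℝ) * (m + 1) + m := by
    rintro v a ⟨b, hb, rfl⟩ i
    have := hb i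
    simp only [PiLp.add_apply, tr]
    constructor <;> linarith [this.1, this.2]
  have hTm : ∀ v, MeasurableSet (T v) := fun v =>
    (measurableEmbedding_addRight (tr v)).measurableSet_image.2 (measurableSet_box m)
  have hsep : ∀ u v, u ≠ v → ∀ a ∈ T u, ∀ b ∈ T v, 1 ≤ dist a b := by
    intro u v huv a ha b hb
    obtain ⟨i, hi⟩ := Function.ne_iff.1 huv
    refine le_trans ?_ (abs_coord_sub_le_dist a b i)
    have h1 := hmem u a ha i
    have h2 := hmem v b hb i
    rcases lt_or_gt_of_ne hi with hlt | hlt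
    · have : ((u i : ℕ) : ℝ) + 1 ≤ (v i : ℕ) := by exact_mod_cast hlt
      rw [abs_sub_comm]
      refine le_trans ?_ (le_abs_self _)
      nlinarith
    · have : ((v i : ℕ) : ℝ) + 1 ≤ (u i : ℕ) := by exact_mod_cast hlt
      refine le_trans ?_ (le_abs_self _)
      nlinarith
  have hdisj : ((Finset.univ : Finset (Fin 3 → Fin k)) : Set _).PairwiseDisjoint T := by
    intro u _ v _ huv
    rw [Function.onFun, Set.disjoint_left]
    intro a ha hb
    have := hsep u v huv a ha a hb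
    simp at this
    linarith
  have hsub : (⋃ v ∈ (Finset.univ : Finset (Fin 3 → Fin k)), T v) ⊆ box (k * (m + 1)) := by
    intro a ha i
    simp only [Set.mem_iUnion] at ha
    obtain ⟨v, _, hv⟩ := ha
    have h1 := hmem v a hv i
    have : ((v i : ℕ) : ℝ) + 1 ≤ k := by exact_mod_cast (v i).2
    constructor
    · exact le_trans (by positivity) h1.1
    · nlinarith
  have hw : Measurable fun p : E3 × E3 => radial (potC c) p.1 p.2 :=
    measurable_radial (potC_measurable hc)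
  have hle : Xi (within Finset.univ T (radial (potC c))) μ (⋃ v ∈ Finset.univ, T v) ≤
      Xi (radial (potC c)) μ (⋃ v ∈ (Finset.univ : Finset (Fin 3 → Fin k)), T v) := by
    refine Xi_anti μ (Finset.measurableSet_biUnion _ fun v _ => hTm v) fun N x _ hxA => ?_
    refine energy_mono x fun i j _ => ?_
    unfold within
    split_ifs with hq
    · rfl
    · push Not at hq
      obtain ⟨u, _, hu⟩ := Set.mem_iUnion₂.1 (hxA i)
      obtain ⟨v, _, hv⟩ := Set.mem_iUnion₂.1 (hxA j)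
      exact hc.potC_le_zero (hsep u v (fun h => hq u (Finset.mem_univ u) hu (h ▸ hv)) _ hu _ hv)
  rw [Xi_within Finset.univ T (fun v _ => hTm v) hdisj hw μ] at hle
  simp only [T, Xi_translate _ (radial_add (potC c)), Finset.prod_const, Xi_eq_exp_lam hc μ m] at hle
  have hfin := hle.trans ((Xi_mono_set _ μ hsub).trans_eq (Xi_eq_exp_lam hc μ _))
  rw [← ENNReal.ofReal_pow (Real.exp_nonneg _), ← Real.exp_nat_mul,
    ENNReal.ofReal_le_ofReal_iff (Real.exp_nonneg _), Real.exp_le_exp] at hfin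
  simpa using hfin

/-- The infinite volume pressure. -/
noncomputable def pres (c : ℕ → ℝ) (μ : ℝ) : ℝ := ⨆ L : ℕ, lam c μ L / ((L : ℝ) + 1) ^ 3

theorem bddAbove_pres (hc : Good c) (μ : ℝ) :
    BddAbove (Set.range fun L : ℕ => lam c μ L / ((L : ℝ) + 1) ^ 3) := by
  obtain ⟨K, hK⟩ := Xi_box_bound hc μ
  refine ⟨max K 0, ?_⟩
  rintro _ ⟨L, rfl⟩
  have h := hK L (by positivity)
  rw [Xi_eq_exp_lam hc, ENNReal.ofReal_le_ofReal_iff (Real.exp_nonneg _), Real.exp_le_exp] at h
  rw [div_le_iff₀ (by positivity)]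
  calc lam c μ L ≤ (L : ℝ) ^ 3 * max K 0 := h.trans (by gcongr; exact le_max_left _ _)
    _ ≤ ((L : ℝ) + 1) ^ 3 * max K 0 :=
        mul_le_mul_of_nonneg_right (pow_le_pow_left₀ (by positivity) (by linarith) 3)
          (le_max_right K 0)
    _ = _ := mul_comm _ _

theorem lam_le_pres (hc : Good c) (μ : ℝ) (L : ℕ) :
    lam c μ L ≤ ((L : ℝ) + 1) ^ 3 * pres c μ := by
  have := le_ciSup (bddAbove_pres hc μ) L
  rw [div_le_iff₀ (by positivity)] at this
  unfold pres
  linarith

theorem pres_nonneg (hc : Good c) (μ : ℝ) : 0 ≤ pres c μ :=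
  le_ciSup_of_le (bddAbove_pres hc μ) 0 (div_nonneg (lam_nonneg hc μ _) (by positivity))

theorem tendsto_pres (hc : Good c) (μ : ℝ) :
    Tendsto (fun L : ℝ => lam c μ L / L ^ 3) atTop (𝓝 (pres c μ)) := by
  rw [tendsto_order]
  constructor
  · intro r hr
    obtain ⟨m, hm⟩ := exists_lt_of_lt_ciSup hr
    let X := lam c μ m / ((m : ℝ) + 1) ^ 3
    have hlim : Tendsto (fun L : ℝ => X * (1 - ((m : ℝ) + 1) / L) ^ 3) atTop (𝓝 X) := by
      have h0 : Tendsto (fun L : ℝ => ((m : ℝ) + 1) / L) atTop (𝓝 0) :=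
        tendsto_const_nhds.div_atTop tendsto_id
      simpa using ((h0.const_sub 1).pow 3).const_mul X
    filter_upwards [(tendsto_order.1 hlim).1 r hm, eventually_ge_atTop ((m : ℝ) + 1)] with L hL hLm
    refine hL.trans_le ?_
    have hm1 : (0 : ℝ) < (m : ℝ) + 1 := by positivity
    have hL0 : 0 < L := hm1.trans_le hLm
    set k := ⌊L / ((m : ℝ) + 1)⌋₊
    have hk1 : (k : ℝ) * ((m : ℝ) + 1) ≤ L := by
      rw [← le_div_iff₀ hm1]; exact Nat.floor_le (by positivity)
    have hk2 : L - ((m : ℝ) + 1) ≤ (k : ℝ) * ((m : ℝ) + 1) := by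
      have := Nat.lt_floor_add_one (L / ((m : ℝ) + 1))
      rw [div_lt_iff₀ hm1] at this
      linarith
    have hsup := (lam_superadd hc μ (Nat.cast_nonneg m) k).trans (lam_mono hc μ hk1)
    rw [le_div_iff₀ (by positivity)]
    calc X * (1 - ((m : ℝ) + 1) / L) ^ 3 * L ^ 3 = X * (L - ((m : ℝ) + 1)) ^ 3 := by
          rw [mul_assoc, ← mul_pow, sub_mul, one_mul, div_mul_cancel₀ _ hL0.ne']
      _ ≤ X * ((k : ℝ) * ((m : ℝ) + 1)) ^ 3 := by
          refine mul_le_mul_of_nonneg_left (pow_le_pow_left₀ (by linarith) hk2 3) ?_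
          exact div_nonneg (lam_nonneg hc μ _) (by positivity)
      _ = (k : ℝ) ^ 3 * lam c μ m := by
          simp only [X]
          field_simp
      _ ≤ lam c μ L := hsup
  · intro r hr
    have hlim : Tendsto (fun L : ℝ => (1 + 2 / L) ^ 3 * pres c μ) atTop (𝓝 (pres c μ)) := by
      have h0 : Tendsto (fun L : ℝ => (2 : ℝ) / L) atTop (𝓝 0) :=
        tendsto_const_nhds.div_atTop tendsto_id
      simpa using ((h0.const_add 1).pow 3).mul_const (pres c μ)
    filter_upwards [(tendsto_order.1 hlim).2 r hr, eventually_gt_atTop (0 : ℝ)] with L hL hL0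
    refine lt_of_le_of_lt ?_ hL
    rw [div_le_iff₀ (by positivity)]
    calc lam c μ L ≤ lam c μ ⌈L⌉₊ := lam_mono hc μ (Nat.le_ceil L)
      _ ≤ ((⌈L⌉₊ : ℝ) + 1) ^ 3 * pres c μ := lam_le_pres hc μ _
      _ ≤ (L + 2) ^ 3 * pres c μ := by
          refine mul_le_mul_of_nonneg_right (pow_le_pow_left₀ (by positivity) ?_ 3) (pres_nonneg hc μ)
          linarith [Nat.ceil_lt_add_one hL0.le]
      _ = (1 + 2 / L) ^ 3 * pres c μ * L ^ 3 := by field_simp

end Vale.Agent.P171
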