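import Mathlib
import Vale.Agent.P171.Thermo

/-!
Shifted block decompositions.
-/

open Finset

namespace Vale.Agent.P171

/-- Add `t` to the `m`-th coefficient. -/
def bump (c : ℕ → ℝ) (m : ℕ) (t : ℝ) : ℕ → ℝ := fun i => c i + if i = m then t else 0

theorem good_bump {c : ℕ → ℝ} (hc : Good c) (m : ℕ) {t : ℝ} (ht : 0 ≤ t) : Good (bump c m t) :=
  ⟨fun i => add_nonneg (hc.nonneg i) (by split_ifs <;> linarith),
    hc.summable.add (hasSum_ite_eq m t).summable⟩

theorem tsum_bump {c : ℕ → ℝ} (hc : Good c) (m : ℕ) (t : ℝ) :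
    ∑' i, bump c m t i = (∑' i, c i) + t := by
  unfold bump
  rw [hc.summable.tsum_add (hasSum_ite_eq m t).summable, tsum_ite_eq]

theorem potC_bump {c : ℕ → ℝ} (hc : Good c) (m : ℕ) (t r : ℝ) :
    potC (bump c m t) r = potC c r - t * stepFn m r := by
  have h : ∀ i, bump c m t i * stepFn i r =
      c i * stepFn i r + if i = m then t * stepFn m r else 0 := by
    intro i
    unfold bump
    split_ifs with hi
    · subst hi; ring
    · ring
  unfold potC attr
  simp_rw [h]
  rw [(hc.summable_step r).tsum_add (hasSum_ite_eq m _).summable, tsum_ite_eq]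
  ring

/-- Block label for blocks of side `R` shifted by `u`. -/
noncomputable def blk (R : ℕ) (u : Fin 3 → Fin R) (x : E3) : Fin 3 → ℤ :=
  fun a => (cell 1 x a + (u a : ℕ)) / (R : ℤ)

theorem ediv_diff_le {p p' : ℤ} {R : ℕ} (hR : 1 ≤ R) (h : |p - p'| ≤ (R : ℤ)) :
    |p / (R : ℤ) - p' / (R : ℤ)| ≤ 1 := by
  have hR' : (0 : ℤ) < R := by exact_mod_cast hR
  have h1 := abs_le.1 h
  have e1 : (p' + R) / (R : ℤ) = p' / (R : ℤ) + 1 := by
    rw [Int.add_ediv_of_dvd_right (dvd_refl _), Int.ediv_self hR'.ne']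
  have e2 : (p + R) / (R : ℤ) = p / (R : ℤ) + 1 := by
    rw [Int.add_ediv_of_dvd_right (dvd_refl _), Int.ediv_self hR'.ne']
  have a1 : p / (R : ℤ) ≤ (p' + R) / (R : ℤ) := Int.ediv_le_ediv hR' (by linarith [h1.2])
  have a2 : p' / (R : ℤ) ≤ (p + R) / (R : ℤ) := Int.ediv_le_ediv hR' (by linarith [h1.1])
  rw [abs_le]; constructor <;> linarith

theorem card_shift_split_le {p p' : ℤ} {R d : ℕ} (h : |p - p'| ≤ (d : ℤ)) :
    (univ.filter fun u : Fin R => (p + (u : ℕ)) / (R : ℤ) ≠ (p' + (u : ℕ)) / (R : ℤ)).card ≤ d := by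
  wlog hle : p ≤ p' generalizing p p'
  · have := this (p := p') (p' := p) (by rwa [abs_sub_comm]) (le_of_not_ge hle)
    simpa [ne_comm] using this
  rcases Nat.eq_zero_or_pos R with hR | hR
  · subst hR; simp
  have hR' : (0 : ℤ) < R := by exact_mod_cast hR
  have hd : p' - p ≤ (d : ℤ) := by have := (abs_le.1 h).1; linarith
  refine le_trans (Finset.card_le_card_of_injOn (fun u : Fin R => (p + (u : ℕ)) % (R : ℤ))
    (t := Finset.Ico ((R : ℤ) - d) R) ?_ ?_) ?_
  · intro u hu
    simp only [coe_filter, mem_univ, true_and, Set.mem_ofPred_eq] at hu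
    simp only [coe_Ico, Set.mem_Ico]
    refine ⟨?_, Int.emod_lt_of_pos _ hR'⟩
    by_contra hcon
    push Not at hcon
    apply hu
    have hm := Int.emod_add_mul_ediv (p + (u : ℕ)) (R : ℤ)
    have hm0 := Int.emod_nonneg (p + (u : ℕ)) hR'.ne'
    refine le_antisymm (Int.ediv_le_ediv hR' (by linarith)) ?_
    by_contra hlt
    push Not at hlt
    have h2 := Int.lt_ediv_add_one_mul_self (p' + (u : ℕ)) hR'
    have h3 := Int.ediv_mul_le (p' + (u : ℕ)) hR'.ne'
    nlinarith
  · intro u _ v _ huv
    simp only at huv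
    have hu := u.2
    have hv := v.2
    apply Fin.ext
    have h4 : (((u : ℕ) : ℤ) - (v : ℕ)) % (R : ℤ) = 0 := by
      have := Int.emod_eq_emod_iff_emod_sub_eq_zero.1 huv
      simpa using this
    have h5 : |(((u : ℕ) : ℤ) - (v : ℕ))| < (R : ℤ) := by
      rw [abs_lt]; constructor <;> omega
    have := Int.eq_zero_of_abs_lt_dvd (Int.dvd_of_emod_eq_zero h4) h5
    omega
  · rw [Int.card_Ico]
    omega

theorem card_blk_split_le (R M : ℕ) (a b : E3) (h : ∀ k, |cell 1 a k - cell 1 b k| ≤ (M : ℤ)) :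
    ((univ.filter fun u : Fin 3 → Fin R => blk R u a ≠ blk R u b).card : ℝ)
      ≤ min ((R : ℝ) ^ 3) (3 * M * (R : ℝ) ^ 2) := by
  classical
  refine le_min ?_ ?_
  · have := card_filter_le (univ : Finset (Fin 3 → Fin R)) (fun u => blk R u a ≠ blk R u b)
    simp only [card_univ, Fintype.card_fun, Fintype.card_fin] at this
    exact_mod_cast this
  · let B : Fin 3 → Finset (Fin R) := fun k => univ.filter fun u : Fin R =>
      (cell 1 a k + (u : ℕ)) / (R : ℤ) ≠ (cell 1 b k + (u : ℕ)) / (R : ℤ)
    let G : Fin 3 → Finset (Fin 3 → Fin R) := fun k =>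
      Fintype.piFinset fun l => if l = k then B k else univ
    have hsub : (univ.filter fun u : Fin 3 → Fin R => blk R u a ≠ blk R u b) ⊆
        univ.biUnion G := by
      intro u hu
      obtain ⟨k, hk⟩ := Function.ne_iff.1 (mem_filter.1 hu).2
      refine mem_biUnion.2 ⟨k, mem_univ k, Fintype.mem_piFinset.2 fun l => ?_⟩
      split_ifs with hl
      · subst hl
        exact mem_filter.2 ⟨mem_univ _, hk⟩
      · exact mem_univ _
    have hG : ∀ k, (G k).card ≤ M * R ^ 2 := by
      intro k
      have hB : (B k).card ≤ M := card_shift_split_le (h k)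
      rw [Fintype.card_piFinset]
      fin_cases k <;>
        simp [Fin.prod_univ_three, sq] <;>
        first
          | nlinarith [Nat.zero_le R, mul_le_mul_of_nonneg_right hB (Nat.zero_le (R * R))]
          | (simp at hB; nlinarith [Nat.zero_le R, mul_le_mul_of_nonneg_right hB (Nat.zero_le (R * R))])
    have h1 := (card_le_card hsub).trans (card_biUnion_le.trans (sum_le_sum fun k _ => hG k))
    simp only [sum_const, card_univ, Fintype.card_fin, smul_eq_mul] at h1
    calc ((univ.filter fun u : Fin 3 → Fin R => blk R u a ≠ blk R u b).card : ℝ)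
        ≤ ((3 * (M * R ^ 2) : ℕ) : ℝ) := by exact_mod_cast h1
      _ = 3 * M * (R : ℝ) ^ 2 := by push_cast; ring

/-- The average boundary loss for blocks of side `R`. -/
noncomputable def eta (c : ℕ → ℝ) (R : ℕ) : ℝ :=
  27 / 2 * ∑' i, c i * min 1 (3 * ((i : ℝ) + 1) / R)

theorem summable_eta {c : ℕ → ℝ} (hc : Good c) (R : ℕ) :
    Summable fun i => c i * min 1 (3 * ((i : ℝ) + 1) / R) :=
  hc.summable.of_nonneg_of_le (fun i => mul_nonneg (hc.nonneg i) (le_min zero_le_one (by positivity)))
    fun i => mul_le_of_le_one_right (hc.nonneg i) (min_le_left _ _)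

theorem eta_nonneg {c : ℕ → ℝ} (hc : Good c) (R : ℕ) : 0 ≤ eta c R :=
  mul_nonneg (by norm_num) (tsum_nonneg fun i =>
    mul_nonneg (hc.nonneg i) (le_min zero_le_one (by positivity)))

theorem tendsto_eta {c : ℕ → ℝ} (hc : Good c) :
    Filter.Tendsto (eta c) Filter.atTop (nhds 0) := by
  have : Filter.Tendsto (fun R : ℕ => ∑' i, c i * min 1 (3 * ((i : ℝ) + 1) / R)) Filter.atTop
      (nhds (∑' _i : ℕ, (0 : ℝ))) := by
    refine tendsto_tsum_of_dominated_convergence hc.summable (fun i => ?_)
      (Filter.Eventually.of_forall fun R i => ?_)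
    · have h0 : Filter.Tendsto (fun R : ℕ => 3 * ((i : ℝ) + 1) / R) Filter.atTop (nhds 0) :=
        tendsto_const_div_atTop_nhds_zero_nat _
      simpa using ((tendsto_const_nhds (x := (1 : ℝ))).min h0).const_mul (c i)
    · rw [Real.norm_eq_abs, abs_mul, abs_of_nonneg (hc.nonneg i),
        abs_of_nonneg (le_min zero_le_one (by positivity))]
      exact mul_le_of_le_one_right (hc.nonneg i) (min_le_left _ _)
  rw [tsum_zero] at this
  simpa [eta] using! this.const_mul (27 / 2 : ℝ)

variable {ι : Type} [Fintype ι] [DecidableEq ι]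

/-- Attraction between different blocks. -/
noncomputable def crossW (c : ℕ → ℝ) (R : ℕ) (u : Fin 3 → Fin R) : E3 → E3 → ℝ :=
  fun a b => if blk R u a = blk R u b then 0 else attr c (dist a b)

theorem energy_smul (r : ℝ) (w : E3 → E3 → ℝ) (x : ι → E3) :
    energy (fun a b => r * w a b) x = r * energy w x := by
  unfold energy
  rw [← mul_div_assoc, mul_sum]
  congr 1
  refine sum_congr rfl fun i _ => ?_
  rw [mul_sum]
  refine sum_congr rfl fun j _ => ?_
  split_ifs <;> ring

theorem energy_sum {κ : Type*} (s : Finset κ) (w : κ → E3 → E3 → ℝ) (x : ι → E3) :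
    energy (fun a b => ∑ q ∈ s, w q a b) x = ∑ q ∈ s, energy (w q) x := by
  unfold energy
  rw [← sum_div]
  congr 1
  rw [sum_comm (s := s)]
  refine sum_congr rfl fun i _ => ?_
  rw [sum_comm (s := s)]
  refine sum_congr rfl fun j _ => ?_
  split_ifs <;> simp

theorem exists_good_shift {c : ℕ → ℝ} (hc : Good c) {R : ℕ} (hR : 1 ≤ R) (x : ι → E3) :
    ∃ u : Fin 3 → Fin R, energy (crossW c R u) x ≤ eta c R * samePairs (cell 1 ∘ x) := by
  classical
  have hR0 : (0 : ℝ) < R := by exact_mod_cast hR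
  have : Nonempty (Fin R) := ⟨⟨0, hR⟩⟩
  let c' : ℕ → ℝ := fun i => (R : ℝ) ^ 3 * (c i * min 1 (3 * ((i : ℝ) + 1) / R))
  have hc' : Good c' :=
    ⟨fun i => mul_nonneg (by positivity) (mul_nonneg (hc.nonneg i) (le_min zero_le_one (by positivity))),
      (summable_eta hc R).mul_left _⟩
  have hpt : ∀ a b : E3, ∑ u : Fin 3 → Fin R, crossW c R u a b ≤ attr c' (dist a b) := by
    intro a b
    have h1 : ∑ u : Fin 3 → Fin R, crossW c R u a b =
        ((univ.filter fun u : Fin 3 → Fin R => blk R u a ≠ blk R u b).card : ℝ) * attr c (dist a b) := by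
      rw [← nsmul_eq_mul, ← sum_const, sum_filter]
      refine sum_congr rfl fun u _ => ?_
      simp [crossW]
    rw [h1, attr, ← tsum_mul_left]
    refine Summable.tsum_le_tsum (fun i => ?_) ((hc.summable_step _).mul_left _) (hc'.summable_step _)
    unfold stepFn
    split_ifs with hd
    · have hM := card_blk_split_le R (i + 1) a b fun k =>
        cell_one_diff_le (R := i + 1) (by push_cast; exact hd) k
      have hmin : min ((R : ℝ) ^ 3) (3 * ((i + 1 : ℕ) : ℝ) * (R : ℝ) ^ 2) =
          (R : ℝ) ^ 3 * min 1 (3 * ((i : ℝ) + 1) / R) := by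
        rw [mul_min_of_nonneg _ _ (by positivity), mul_one]
        congr 1
        push_cast
        field_simp
      rw [hmin] at hM
      have h0 : 0 ≤ c i * (1 / ((i : ℝ) + 1) ^ 3) := mul_nonneg (hc.nonneg i) (by positivity)
      calc _ ≤ (R : ℝ) ^ 3 * min 1 (3 * ((i : ℝ) + 1) / R) * (c i * (1 / ((i : ℝ) + 1) ^ 3)) :=
            mul_le_mul_of_nonneg_right hM h0
        _ = _ := by simp only [c']; ring
    · simp
  have hsum : ∑ u : Fin 3 → Fin R, energy (crossW c R u) x ≤
      ∑ _u : Fin 3 → Fin R, eta c R * samePairs (cell 1 ∘ x) := by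
    rw [← energy_sum]
    refine (energy_mono (w := radial (attr c')) x fun i j _ => hpt (x i) (x j)).trans ?_
    refine (energy_attr_le hc' x).trans (le_of_eq ?_)
    simp only [c', tsum_mul_left, sum_const, card_univ, Fintype.card_fun, Fintype.card_fin,
      nsmul_eq_mul, eta, Nat.cast_pow]
    ring
  obtain ⟨u, _, hu⟩ := exists_le_of_sum_le univ_nonempty hsum
  exact ⟨u, hu⟩

/-- Inside-block interaction with an additional mean-field attraction `κ`. -/
noncomputable def blockW (c : ℕ → ℝ) (κ : ℝ) (R : ℕ) (u : Fin 3 → Fin R) : E3 → E3 → ℝ :=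
  fun a b => if blk R u a = blk R u b then potC c (dist a b) - κ else 0

theorem energy_step_le_blk {m R : ℕ} (hR : R = m + 1) (u : Fin 3 → Fin R) (x : ι → E3) :
    energy (radial (stepFn m)) x ≤ 27 / 2 / (R : ℝ) ^ 3 * samePairs (blk R u ∘ x) := by
  classical
  have hR1 : 1 ≤ R := by omega
  have hRc : (R : ℝ) = (m : ℝ) + 1 := by rw [hR]; push_cast; rfl
  let V : Finset (Fin 3 → ℤ) := Fintype.piFinset fun _ => Finset.Icc (-1) 1
  have hV : V.card = 27 := by simp [V, Int.card_Icc]
  have key : (∑ i, ∑ j, if i = j then 0 else radial (stepFn m) (x i) (x j)) ≤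
      ∑ i, ∑ j, ∑ v ∈ V, (1 / (R : ℝ) ^ 3) *
        (if blk R u (x j) = blk R u (x i) + v then (1 : ℝ) else 0) := by
    refine sum_le_sum fun i _ => sum_le_sum fun j _ => ?_
    by_cases hd : i ≠ j ∧ dist (x i) (x j) < (m : ℝ) + 1
    · have hmem : blk R u (x j) - blk R u (x i) ∈ V := by
        simp only [V, Fintype.mem_piFinset, Finset.mem_Icc]
        intro k
        have h1 : |cell 1 (x j) k - cell 1 (x i) k| ≤ (R : ℤ) :=
          cell_one_diff_le (by rw [hRc, dist_comm]; exact hd.2) k
        have h2 := ediv_diff_le hR1 (p := cell 1 (x j) k + (u k : ℕ))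
          (p' := cell 1 (x i) k + (u k : ℕ)) (by simpa using h1)
        simpa [blk] using abs_le.1 h2
      rw [if_neg hd.1, radial, stepFn, if_pos hd.2,
        Finset.sum_eq_single_of_mem _ hmem (fun v _ hv => by
          rw [if_neg, mul_zero]
          intro hh; exact hv (by rw [hh]; simp))]
      simp [hRc]
    · refine le_trans (le_of_eq ?_) (sum_nonneg fun v _ => ?_)
      · split_ifs with hij
        · rfl
        · rw [radial, stepFn, if_neg fun h => hd ⟨hij, h⟩]
      · split_ifs <;> positivity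
  have h2 : (∑ i, ∑ j, ∑ v ∈ V, (1 / (R : ℝ) ^ 3) *
        (if blk R u (x j) = blk R u (x i) + v then (1 : ℝ) else 0)) ≤
      27 / (R : ℝ) ^ 3 * samePairs (blk R u ∘ x) := by
    calc _ = ∑ v ∈ V, (1 / (R : ℝ) ^ 3) *
          ∑ i, ∑ j, (if blk R u (x j) = blk R u (x i) + v then (1 : ℝ) else 0) := by
          simp_rw [mul_sum]
          rw [sum_comm (s := V)]
          exact sum_congr rfl fun i _ => sum_comm
      _ ≤ ∑ _v ∈ V, (1 / (R : ℝ) ^ 3) * samePairs (blk R u ∘ x) := sum_le_sum fun v _ =>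
          mul_le_mul_of_nonneg_left
            (sum_shift_le (blk R u ∘ x) (fun q => q + v) (add_left_injective v)) (by positivity)
      _ = _ := by rw [sum_const, hV, nsmul_eq_mul]; push_cast; ring
  unfold energy
  have := key.trans h2
  rw [div_le_iff₀ (by norm_num)]
  refine this.trans (le_of_eq ?_)
  ring

theorem energy_bump_ge {c : ℕ → ℝ} (hc : Good c) {m R : ℕ} (hR : R = m + 1) {t : ℝ} (ht : 0 ≤ t)
    (u : Fin 3 → Fin R) (x : ι → E3) :
    energy (blockW c (27 * t / (R : ℝ) ^ 3) R u) x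
      - energy (crossW c R u) x - 27 / 2 * t / (R : ℝ) ^ 3 * Fintype.card ι
      ≤ energy (radial (potC (bump c m t))) x := by
  classical
  set κ := 27 * t / (R : ℝ) ^ 3 with hκ
  have hsame : samePairs (blk R u ∘ x) =
      2 * energy (fun a b => if blk R u a = blk R u b then (1 : ℝ) else 0) x + Fintype.card ι := by
    unfold energy samePairs
    rw [mul_div_cancel₀ _ (by norm_num : (2 : ℝ) ≠ 0)]
    have : (Fintype.card ι : ℝ) = ∑ i : ι, ∑ j : ι, if i = j then (1 : ℝ) else 0 := by simp
    rw [this, ← sum_add_distrib]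
    refine sum_congr rfl fun i _ => ?_
    rw [← sum_add_distrib]
    refine sum_congr rfl fun j _ => ?_
    by_cases h : i = j <;> simp [h]
  have h1 : energy (radial (potC (bump c m t))) x =
      energy (radial (potC c)) x - t * energy (radial (stepFn m)) x := by
    rw [← energy_smul, ← energy_sub]
    congr 1
    funext a b
    simp [radial, potC_bump hc]
  have h2 : energy (blockW c 0 R u) x - energy (crossW c R u) x ≤ energy (radial (potC c)) x := by
    rw [← energy_sub]
    refine energy_mono x fun i j _ => ?_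
    unfold blockW crossW radial potC
    split_ifs
    · linarith
    · linarith [core_nonneg (dist (x i) (x j))]
  have h3 : energy (blockW c κ R u) x = energy (blockW c 0 R u) x -
      κ * energy (fun a b => if blk R u a = blk R u b then (1 : ℝ) else 0) x := by
    rw [← energy_smul, ← energy_sub]
    congr 1
    funext a b
    unfold blockW
    split_ifs <;> ring
  have h4 := mul_le_mul_of_nonneg_left (energy_step_le_blk hR u x) ht
  rw [hsame] at h4
  rw [h1, h3]
  have h5 : t * (27 / 2 / (R : ℝ) ^ 3 *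
      (2 * energy (fun a b => if blk R u a = blk R u b then (1 : ℝ) else 0) x + Fintype.card ι)) =
      κ * energy (fun a b => if blk R u a = blk R u b then (1 : ℝ) else 0) x +
        27 / 2 * t / (R : ℝ) ^ 3 * Fintype.card ι := by rw [hκ]; ring
  linarith

end Vale.Agent.P171
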