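import Mathlib

/-!
A weak form of Ekeland's variational principle.
-/

open Filter Topology Set

namespace Vale.Agent.P171

theorem exists_approx_min {X : Type*} [PseudoMetricSpace X] [CompleteSpace X] [Nonempty X]
    {f : X → ℝ} (hf : LowerSemicontinuous f) (hb : BddBelow (range f)) {ε : ℝ} (hε : 0 < ε) :
    ∃ x, ∀ y, f x ≤ f y + ε * dist x y := by
  classical
  let S : X → Set X := fun x => {y | f y + ε * dist x y ≤ f x}
  have hself : ∀ x, x ∈ S x := fun x => by simp [S]
  have hbdd : ∀ x, BddBelow (f '' S x) := fun x => hb.mono (image_subset_range _ _)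
  have hne : ∀ x, (f '' S x).Nonempty := fun x => ⟨f x, x, hself x, rfl⟩
  have hnext : ∀ (x : X) (n : ℕ), ∃ y ∈ S x, f y < sInf (f '' S x) + (1 / 2) ^ n := by
    intro x n
    have h0 : (0 : ℝ) < (1 / 2) ^ n := by positivity
    obtain ⟨_, ⟨y, hy, rfl⟩, hlt⟩ :=
      exists_lt_of_csInf_lt (hne x) (lt_add_of_pos_right (sInf (f '' S x)) h0)
    exact ⟨y, hy, hlt⟩
  choose nxt hnxtS hnxtf using hnext
  let u : ℕ → X := fun n => Nat.rec (Classical.arbitrary X) (fun n x => nxt x n) n
  have hu : ∀ n, u (n + 1) = nxt (u n) n := fun n => rfl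
  have hmono : ∀ m n, m ≤ n → u n ∈ S (u m) := by
    intro m n hmn
    induction n, hmn using Nat.le_induction with
    | base => exact hself _
    | succ n _ ih =>
      have h2 : u (n + 1) ∈ S (u n) := by rw [hu]; exact hnxtS _ _
      simp only [S, mem_ofPred_eq] at ih h2 ⊢
      nlinarith [dist_triangle (u m) (u n) (u (n + 1))]
  have hanti : Antitone (fun n => f (u n)) := antitone_nat_of_succ_le fun n => by
    have h := hmono n (n + 1) (Nat.le_succ n)
    simp only [S, mem_ofPred_eq] at h
    nlinarith [dist_nonneg (x := u n) (y := u (n + 1))]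
  have hbu : BddBelow (range fun n => f (u n)) :=
    hb.mono (range_comp_subset_range u f)
  have hlim := tendsto_atTop_ciInf hanti hbu
  set ℓ := ⨅ n, f (u n) with hℓ
  have hdist : ∀ m n, m ≤ n → dist (u m) (u n) ≤ (f (u m) - ℓ) / ε := by
    intro m n hmn
    rw [le_div_iff₀ hε]
    have h := hmono m n hmn
    simp only [S, mem_ofPred_eq] at h
    have hl : ℓ ≤ f (u n) := ciInf_le hbu n
    nlinarith
  have hcau : CauchySeq u := by
    refine cauchySeq_of_le_tendsto_0 (fun N => 2 * ((f (u N) - ℓ) / ε)) ?_ ?_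
    · intro n m N hn hm
      have h1 := hdist N n hn
      have h2 := hdist N m hm
      have := dist_triangle_left (u n) (u m) (u N)
      linarith
    · have := ((hlim.sub_const ℓ).div_const ε).const_mul 2
      simpa using this
  obtain ⟨x, hx⟩ := cauchySeq_tendsto_of_complete hcau
  have hclosed : ∀ z, IsClosed (S z) := by
    intro z
    have hc : LowerSemicontinuous fun y => f y + ε * dist z y :=
      hf.add (continuous_const.mul (continuous_const.dist continuous_id)).lowerSemicontinuous
    exact hc.isClosed_preimage (f z)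
  have hxS : ∀ m, x ∈ S (u m) := fun m =>
    (hclosed (u m)).mem_of_tendsto hx (eventually_atTop.2 ⟨m, fun n hn => hmono m n hn⟩)
  refine ⟨x, fun y => ?_⟩
  by_contra hcon
  push Not at hcon
  have hyS : ∀ n, y ∈ S (u n) := by
    intro n
    have h := hxS n
    simp only [S, mem_ofPred_eq] at h ⊢
    nlinarith [dist_triangle (u n) x y]
  have hle : ∀ n, f (u (n + 1)) ≤ f y + (1 / 2) ^ n := by
    intro n
    rw [hu]
    have := csInf_le (hbdd (u n)) ⟨y, hyS n, rfl⟩
    linarith [hnxtf (u n) n]
  have hxle : ∀ n, f x ≤ f (u n) := by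
    intro n
    have h := hxS n
    simp only [S, mem_ofPred_eq] at h
    nlinarith [dist_nonneg (x := u n) (y := x)]
  have hpow : Tendsto (fun n => f y + (1 / 2 : ℝ) ^ n) atTop (𝓝 (f y)) := by
    simpa using (tendsto_pow_atTop_nhds_zero_of_lt_one (r := (1/2 : ℝ)) (by norm_num)
      (by norm_num)).const_add (f y)
  have : f x ≤ f y := ge_of_tendsto' hpow fun n => (hxle (n + 1)).trans (hle n)
  nlinarith [dist_nonneg (x := x) (y := y)]

end Vale.Agent.P171
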