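import Mathlib
import Vale.Agent.P171.Thermo

/-!
Lower bound on the pressure by one particle per cell of a lattice of mesh three.
-/

open MeasureTheory Filter Topology
open scoped ENNReal

namespace Vale.Agent.P171

/-- The coefficient sum seen by the lattice lower bound. -/
noncomputable def tailSum (c : ℕ → ℝ) : ℝ := ∑' m, if 7 ≤ m then c m else 0

/-- The inner unit cube of a lattice cell of mesh three. -/
def cube {k : ℕ} (v : Fin 3 → Fin k) : Set E3 :=
  {x | ∀ a, x a ∈ Set.Ico (3 * (v a : ℝ) + 1) (3 * (v a : ℝ) + 2)}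

theorem cube_eq {k : ℕ} (v : Fin 3 → Fin k) : cube v = (WithLp.ofLp : E3 → (Fin 3 → ℝ)) ⁻¹'
    Set.univ.pi (fun a => Set.Ico (3 * (v a : ℝ) + 1) (3 * (v a : ℝ) + 2)) := by
  ext x; simp only [cube, Set.mem_ofPred_eq, Set.mem_preimage, Set.mem_pi, Set.mem_univ, true_implies]

theorem measurableSet_cube {k : ℕ} (v : Fin 3 → Fin k) : MeasurableSet (cube v) := by
  rw [cube_eq]
  exact (PiLp.volume_preserving_ofLp (Fin 3)).measurable
    (MeasurableSet.univ_pi fun _ => measurableSet_Ico)

theorem volume_cube {k : ℕ} (v : Fin 3 → Fin k) : volume (cube v) = 1 := by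
  rw [cube_eq, (PiLp.volume_preserving_ofLp (Fin 3)).measure_preimage
    (MeasurableSet.univ_pi fun _ => measurableSet_Ico).nullMeasurableSet, volume_pi_pi]
  norm_num [Real.volume_Ico]

theorem two_le_dist_of_cube {k : ℕ} {u v : Fin 3 → Fin k} (huv : u ≠ v) {a b : E3}
    (ha : a ∈ cube u) (hb : b ∈ cube v) : 2 ≤ dist a b := by
  obtain ⟨i, hi⟩ := Function.ne_iff.1 huv
  refine le_trans ?_ (abs_coord_sub_le_dist a b i)
  have h1 := ha i
  have h2 := hb i
  rcases lt_or_gt_of_ne hi with hlt | hlt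
  · have : ((u i : ℕ) : ℝ) + 1 ≤ (v i : ℕ) := by exact_mod_cast hlt
    rw [abs_sub_comm]
    refine le_trans ?_ (le_abs_self _)
    linarith [h1.2, h2.1]
  · have : ((v i : ℕ) : ℝ) + 1 ≤ (u i : ℕ) := by exact_mod_cast hlt
    refine le_trans ?_ (le_abs_self _)
    linarith [h2.2, h1.1]

theorem energy_step_cubes {k m : ℕ} (hm : 7 ≤ m) (hk : m + 1 < k) (y : (Fin 3 → Fin k) → E3)
    (hy : ∀ v, y v ∈ cube v) :
    (k : ℝ) ^ 3 * (1 / 2000) ≤ energy (radial (stepFn m)) y := by
  classical
  let t : ℕ := (m + 1) / 8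
  have ht : 1 ≤ t := by omega
  have ht8 : 8 * t ≤ m + 1 := by omega
  have ht9 : m + 1 ≤ 8 * (t + 1) := by omega
  have hrow : ∀ v : Fin 3 → Fin k, (1 / 1000 : ℝ) ≤
      ∑ u, if v = u then 0 else radial (stepFn m) (y v) (y u) := by
    intro v
    let lo : Fin 3 → ℕ := fun a => if (v a : ℕ) + t < k then (v a : ℕ) else (v a : ℕ) - t
    let T : Finset (Fin 3 → Fin k) :=
      Fintype.piFinset fun a => Finset.univ.filter fun i : Fin k =>
        lo a ≤ (i : ℕ) ∧ (i : ℕ) ≤ lo a + t
    have hcard : T.card = (t + 1) ^ 3 := by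
      have h : ∀ a : Fin 3, (Finset.univ.filter fun i : Fin k =>
          lo a ≤ (i : ℕ) ∧ (i : ℕ) ≤ lo a + t).card = t + 1 := by
        intro a
        have hlt : lo a + t < k := by
          have := (v a).2
          simp only [lo]; split_ifs <;> omega
        rw [← Finset.card_map Fin.valEmbedding,
          show (Finset.univ.filter fun i : Fin k => lo a ≤ (i : ℕ) ∧ (i : ℕ) ≤ lo a + t).map
            Fin.valEmbedding = Finset.Icc (lo a) (lo a + t) from ?_]
        · simp; omega
        · ext i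
          simp only [Finset.mem_map, Finset.mem_filter, Finset.mem_univ, true_and, Fin.valEmbedding_apply,
            Finset.mem_Icc]
          exact ⟨fun ⟨j, hj, hji⟩ => hji ▸ hj, fun hi => ⟨⟨i, by omega⟩, hi, rfl⟩⟩
      simp [T, h]
    have hvT : v ∈ T := by
      simp only [T, Fintype.mem_piFinset, Finset.mem_filter, Finset.mem_univ, true_and]
      intro a
      have := (v a).2
      simp only [lo]; split_ifs <;> omega
    have hterm : ∀ u ∈ T.erase v, 1 / ((m : ℝ) + 1) ^ 3 ≤
        (if v = u then 0 else radial (stepFn m) (y v) (y u)) := by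
      intro u hu
      obtain ⟨hne, huT⟩ := Finset.mem_erase.1 hu
      rw [if_neg hne.symm]
      have hd : dist (y v) (y u) < (m : ℝ) + 1 := by
        have hb : ∀ a, |y v a - y u a| ≤ 3 * (t : ℝ) + 1 := by
          intro a
          simp only [T, Fintype.mem_piFinset, Finset.mem_filter, Finset.mem_univ, true_and] at huT
          have h1 := huT a
          have h2 : (v a : ℕ) ≤ (u a : ℕ) + t ∧ (u a : ℕ) ≤ (v a : ℕ) + t := by
            have := (v a).2
            simp only [lo] at h1; split_ifs at h1 <;> omega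
          have h3 : ((v a : ℕ) : ℝ) ≤ (u a : ℕ) + t := by exact_mod_cast h2.1
          have h4 : ((u a : ℕ) : ℝ) ≤ (v a : ℕ) + t := by exact_mod_cast h2.2
          have := hy v a
          have := hy u a
          simp only [Set.mem_Ico] at *
          rw [abs_le]; constructor <;> linarith
        have hsq : dist (y v) (y u) ^ 2 ≤ 3 * (3 * (t : ℝ) + 1) ^ 2 := by
          rw [dist_sq_eq]
          calc ∑ a, (y v a - y u a) ^ 2 ≤ ∑ _a : Fin 3, (3 * (t : ℝ) + 1) ^ 2 :=
                Finset.sum_le_sum fun a _ => by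
                  rw [← sq_abs (y v a - y u a)]
                  exact pow_le_pow_left₀ (abs_nonneg _) (hb a) 2
            _ = _ := by simp
        have h5 : (1 : ℝ) ≤ t := by exact_mod_cast ht
        have h6 : 8 * (t : ℝ) ≤ (m : ℝ) + 1 := by exact_mod_cast ht8
        nlinarith
      rw [radial, stepFn, if_pos hd]
    have h1 : ((T.erase v).card : ℝ) * (1 / ((m : ℝ) + 1) ^ 3) ≤
        ∑ u, if v = u then 0 else radial (stepFn m) (y v) (y u) := by
      rw [← nsmul_eq_mul, ← Finset.sum_const]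
      refine (Finset.sum_le_sum hterm).trans
        (Finset.sum_le_sum_of_subset_of_nonneg (Finset.subset_univ _) fun u _ _ => ?_)
      split_ifs
      · rfl
      · exact stepFn_nonneg _ _
    refine le_trans ?_ h1
    rw [Finset.card_erase_of_mem hvT, hcard, Nat.cast_sub (Nat.one_le_pow _ _ (by omega))]
    push_cast
    rw [mul_one_div, le_div_iff₀ (by positivity)]
    have h7 : (1 : ℝ) ≤ t := by exact_mod_cast ht
    have h8 : (m : ℝ) + 1 ≤ 8 * ((t : ℝ) + 1) := by exact_mod_cast ht9
    have h9 : ((m : ℝ) + 1) ^ 3 ≤ (8 * ((t : ℝ) + 1)) ^ 3 := by gcongr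
    have h10 : (2 : ℝ) ^ 3 ≤ ((t : ℝ) + 1) ^ 3 := by gcongr; linarith
    nlinarith
  unfold energy
  have h := Finset.sum_le_sum (s := (Finset.univ : Finset (Fin 3 → Fin k))) fun v _ => hrow v
  simp only [Finset.sum_const, Finset.card_univ, Fintype.card_fun, Fintype.card_fin, nsmul_eq_mul,
    Nat.cast_pow] at h
  linarith

theorem lam_lattice {c : ℕ → ℝ} (hc : Good c) (μ : ℝ) (s : Finset ℕ) (k : ℕ)
    (hk : ∀ m ∈ s, m + 1 < k) :
    (k : ℝ) ^ 3 * (μ + 1 / 2000 * ∑ m ∈ s, if 7 ≤ m then c m else 0) ≤ lam c μ (3 * k) := by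
  classical
  set A : ℝ := 1 / 2000 * ∑ m ∈ s, if 7 ≤ m then c m else 0 with hA
  let N := k ^ 3
  have hN : Fintype.card (Fin 3 → Fin k) = N := by simp [N]
  let S : (Fin N ≃ (Fin 3 → Fin k)) → Set (Fin N → E3) := fun σ =>
    Set.univ.pi fun i => cube (σ i)
  have hSd : Pairwise (Function.onFun Disjoint S) := by
    intro σ σ' hne
    obtain ⟨i, hi⟩ : ∃ i, σ i ≠ σ' i := by
      by_contra h; push Not at h; exact hne (Equiv.ext h)
    rw [Function.onFun, Set.disjoint_left]
    intro x hx hx'
    have := two_le_dist_of_cube hi (hx i trivial) (hx' i trivial)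
    rw [dist_self] at this
    linarith
  have hSsub : (⋃ σ, S σ) ⊆ Set.univ.pi fun _ : Fin N => box (3 * k) := by
    intro x hx i _ a
    obtain ⟨σ, hσ⟩ := Set.mem_iUnion.1 hx
    have h1 := hσ i trivial a
    have : ((σ i a : ℕ) : ℝ) + 1 ≤ k := by exact_mod_cast (σ i a).2
    have h0 : (0 : ℝ) ≤ (σ i a : ℕ) := Nat.cast_nonneg _
    simp only [Set.mem_Ico, Set.mem_Icc] at *
    constructor <;> linarith
  have hE : ∀ σ, ∀ x ∈ S σ, energy (radial (potC c)) x ≤ -((k : ℝ) ^ 3 * A) := by
    intro σ x hx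
    let y : (Fin 3 → Fin k) → E3 := x ∘ σ.symm
    have hy : ∀ v, y v ∈ cube v := fun v => by
      have := hx (σ.symm v) trivial
      simpa [y] using this
    rw [← energy_congr_equiv σ.symm, energy_radial_potC]
    have hcore : energy (radial core) y ≤ 0 := by
      unfold energy
      refine div_nonpos_of_nonpos_of_nonneg (Finset.sum_nonpos fun u _ =>
        Finset.sum_nonpos fun v _ => ?_) (by norm_num)
      split_ifs with h
      · rfl
      · rw [radial, core_eq_zero (le_trans (by norm_num) (two_le_dist_of_cube h (hy u) (hy v)))]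
    have hattr : (k : ℝ) ^ 3 * A ≤ energy (radial (attr c)) y := by
      rw [energy_attr_eq_tsum hc, hA, ← mul_assoc, Finset.mul_sum]
      refine le_trans (Finset.sum_le_sum fun m hm => ?_)
        (Summable.sum_le_tsum s (fun m _ => mul_nonneg (hc.nonneg m) (energy_step_nonneg y m)) ?_)
      · split_ifs with h7
        · rw [mul_comm ((k : ℝ) ^ 3 * _)]
          exact mul_le_mul_of_nonneg_left (energy_step_cubes h7 (hk m hm) y hy) (hc.nonneg m)
        · rw [mul_zero]; exact mul_nonneg (hc.nonneg m) (energy_step_nonneg y m)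
      · exact (hc.summable.mul_right (27 / 2 * samePairs (cell 1 ∘ y))).of_nonneg_of_le
          (fun m => mul_nonneg (hc.nonneg m) (energy_step_nonneg y m))
          (fun m => mul_le_mul_of_nonneg_left (energy_step_le y m) (hc.nonneg m))
    change energy (radial core) y - energy (radial (attr c)) y ≤ _
    linarith
  have hQ : ENNReal.ofReal (Real.exp ((k : ℝ) ^ 3 * A)) * (N.factorial : ℝ≥0∞) ≤
      Q (radial (potC c)) (box (3 * k)) (Fin N) := by
    refine le_trans ?_ (lintegral_mono_set hSsub)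
    have hmeas : ∀ σ, MeasurableSet (S σ) := fun σ =>
      MeasurableSet.univ_pi fun i => measurableSet_cube _
    rw [lintegral_iUnion hmeas hSd, tsum_fintype]
    refine le_trans ?_ (Finset.sum_le_sum fun σ _ => setLIntegral_mono'
      (f := fun _ => ENNReal.ofReal (Real.exp ((k : ℝ) ^ 3 * A))) (hmeas σ) fun x hx =>
        ENNReal.ofReal_le_ofReal (Real.exp_le_exp.2 (by linarith [hE σ x hx])))
    have hvol : ∀ σ, volume (S σ) = 1 := fun σ => by simp [S, volume_pi_pi, volume_cube]
    simp only [setLIntegral_const, hvol, mul_one, Finset.sum_const, Finset.card_univ,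
      nsmul_eq_mul]
    rw [Fintype.card_equiv (Fintype.equivFinOfCardEq hN).symm, Fintype.card_fin, mul_comm]
  have hX : ENNReal.ofReal (Real.exp (μ * N) / N.factorial) *
      Q (radial (potC c)) (box (3 * k)) (Fin N) ≤ Xi (radial (potC c)) μ (box (3 * k)) :=
    ENNReal.le_tsum N
  have h := le_trans (mul_le_mul_right hQ _) hX
  rw [← mul_assoc, ← ENNReal.ofReal_mul (by positivity), ← ENNReal.ofReal_natCast,
    ← ENNReal.ofReal_mul (by positivity), Xi_eq_exp_lam hc,
    show Real.exp (μ * N) / N.factorial * Real.exp ((k : ℝ) ^ 3 * A) * N.factorial =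
      Real.exp (μ * N + (k : ℝ) ^ 3 * A) by rw [Real.exp_add]; field_simp,
    ENNReal.ofReal_le_ofReal_iff (Real.exp_nonneg _), Real.exp_le_exp] at h
  simp only [N, Nat.cast_pow] at h
  linarith

theorem pres_lower {c : ℕ → ℝ} (hc : Good c) (μ : ℝ) :
    (μ + 1 / 2000 * tailSum c) / 27 ≤ pres c μ := by
  have hsum : Summable fun m => if 7 ≤ m then c m else 0 :=
    hc.summable.of_nonneg_of_le (fun m => by split_ifs; exact hc.nonneg m; rfl)
      (fun m => by split_ifs; rfl; exact hc.nonneg m)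
  have hs : ∀ s : Finset ℕ,
      (μ + 1 / 2000 * ∑ m ∈ s, if 7 ≤ m then c m else 0) / 27 ≤ pres c μ := by
    intro s
    have hlim : Tendsto (fun k : ℕ => lam c μ (3 * k) / (3 * (k : ℝ)) ^ 3) atTop (𝓝 (pres c μ)) :=
      (tendsto_pres hc μ).comp (tendsto_natCast_atTop_atTop.const_mul_atTop (by norm_num))
    refine ge_of_tendsto hlim ?_
    filter_upwards [eventually_gt_atTop (s.sup fun m => m + 1)] with k hk
    have h := lam_lattice hc μ s k fun m hm =>
      lt_of_le_of_lt (Finset.le_sup (f := fun m => m + 1) hm) hk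
    have hk0 : (0 : ℝ) < k := by exact_mod_cast (Nat.zero_le _).trans_lt hk
    rw [le_div_iff₀ (by positivity)]
    refine le_trans (le_of_eq ?_) h
    ring
  have hlim : Tendsto (fun s : Finset ℕ => (μ + 1 / 2000 * ∑ m ∈ s, if 7 ≤ m then c m else 0) / 27)
      atTop (𝓝 ((μ + 1 / 2000 * tailSum c) / 27)) :=
    ((Tendsto.const_mul (1 / 2000 : ℝ) hsum.hasSum).const_add μ).div_const 27
  exact le_of_tendsto' hlim hs

end Vale.Agent.P171
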