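import Mathlib
import Vale.Agent.P171.Blocks

/-!
Upper bound for the pressure after adding a long-range attraction, at a point where the pressure
is differentiable in the chemical potential.
-/

open MeasureTheory Filter Topology
open scoped ENNReal

namespace Vale.Agent.P171

variable {c : ℕ → ℝ}

theorem pres_mono_mu (hc : Good c) : Monotone (pres c) := by
  intro μ ν h
  refine ciSup_mono (bddAbove_pres hc ν) fun L => div_le_div_of_nonneg_right ?_ (by positivity)
  have : Xi (radial (potC c)) μ (box L) ≤ Xi (radial (potC c)) ν (box L) :=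
    ENNReal.tsum_le_tsum fun N => mul_le_mul_left (ENNReal.ofReal_le_ofReal
      (div_le_div_of_nonneg_right (Real.exp_le_exp.2
        (mul_le_mul_of_nonneg_right h N.cast_nonneg)) (by positivity))) _
  rw [Xi_eq_exp_lam hc, Xi_eq_exp_lam hc, ENNReal.ofReal_le_ofReal_iff (Real.exp_nonneg _),
    Real.exp_le_exp] at this
  exact this

theorem energy_const {ι : Type} [Fintype ι] [DecidableEq ι] (κ : ℝ) (x : ι → E3) :
    energy (fun _ _ => κ) x = κ * ((Fintype.card ι : ℝ) * ((Fintype.card ι : ℝ) - 1) / 2) := by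
  unfold energy
  have h : ∀ i : ι, (∑ j : ι, if i = j then 0 else κ) = ((Fintype.card ι : ℝ) - 1) * κ := by
    intro i
    have h1 : ∀ j, (if i = j then 0 else κ) = κ - (if i = j then κ else 0) := by
      intro j; split_ifs <;> ring
    simp only [h1, Finset.sum_sub_distrib, Finset.sum_const, Finset.card_univ, nsmul_eq_mul,
      Finset.sum_ite_eq, Finset.mem_univ, if_true]
    ring
  simp only [h, Finset.sum_const, Finset.card_univ, nsmul_eq_mul]
  ring

theorem Q_shift_const (φ : ℝ → ℝ) (κ : ℝ) (A : Set E3) (N : ℕ) :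
    Q (radial fun r => φ r - κ) A (Fin N) =
      ENNReal.ofReal (Real.exp (κ * ((N : ℝ) * ((N : ℝ) - 1) / 2))) * Q (radial φ) A (Fin N) := by
  unfold Q
  rw [← lintegral_const_mul' _ _ ENNReal.ofReal_ne_top]
  refine lintegral_congr fun x => ?_
  rw [← ENNReal.ofReal_mul (Real.exp_nonneg _), ← Real.exp_add]
  congr 2
  have : energy (radial fun r => φ r - κ) x = energy (radial φ) x - energy (fun _ _ => κ) x :=
    energy_sub _ _ x
  rw [this, energy_const, Fintype.card_fin]
  ring

theorem measurable_cell (k : ℕ) : Measurable (cell k) := by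
  refine measurable_pi_iff.2 fun a => Measurable.floor (Measurable.mul_const ?_ _)
  exact (measurable_pi_apply a).comp (PiLp.volume_preserving_ofLp (Fin 3)).measurable

theorem measurableSet_blk (R : ℕ) (u : Fin 3 → Fin R) (q : Fin 3 → ℤ) :
    MeasurableSet {x : E3 | blk R u x = q} := by
  have h : MeasurableSet ((cell 1) ⁻¹'
      {p : Fin 3 → ℤ | (fun a => (p a + (u a : ℕ)) / (R : ℤ)) = q}) :=
    measurable_cell 1 (Set.to_countable _).measurableSet
  exact h

theorem block_term_le (hc : Good c) {μ D K1 t s h A : ℝ} {R : ℕ} (hR1 : (1 : ℝ) ≤ R) {V κ : ℝ}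
    (hV : V = (R : ℝ) ^ 3) (hκ : κ = 27 * t / V)
    (hD : ∀ {ι : Type} [Fintype ι] [DecidableEq ι] (d : ℕ → ℝ), Good d → (∑' m, d m) ≤ ∑' m, c m →
      ∀ x : ι → E3, Function.Injective x →
        216 * samePairs (cell 1 ∘ x) - D * Fintype.card ι ≤ energy (radial (potC d)) x)
    (hK1_1 : 1 ≤ K1) (hK1_2 : μ + D + 1 ≤ 27 / 2 * K1) (ht0 : 0 < t) (ht1 : t ≤ 1) (hs0 : 0 ≤ s)
    (hA : 0 < A) (hsum : s + 27 / 2 * t * K1 = h) (N : ℕ) :
    ENNReal.ofReal (Real.exp ((μ + 27 / 2 * t / V) * N) / N.factorial) *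
      Q (radial fun r => potC c r - κ) (box R) (Fin N) ≤
      ENNReal.ofReal (Real.exp (27 / 2 * t * A ^ 2 * V)) *
          (ENNReal.ofReal (Real.exp (μ * N) / N.factorial) * Q (radial (potC c)) (box R) (Fin N)) +
        ENNReal.ofReal (Real.exp (-(s * A * V))) *
          (ENNReal.ofReal (Real.exp ((μ + h) * N) / N.factorial) * Q (radial (potC c)) (box R) (Fin N)) +
        ENNReal.ofReal ((V * Real.exp 0) ^ N / N.factorial) * ENNReal.ofReal (Real.exp (-V)) := by
  have hV0 : 0 < V := by rw [hV]; positivity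
  rw [Q_shift_const, ← mul_assoc, ← ENNReal.ofReal_mul (by positivity), div_mul_eq_mul_div,
    ← Real.exp_add]
  have hexp : (μ + 27 / 2 * t / V) * N + κ * ((N : ℝ) * ((N : ℝ) - 1) / 2) =
      μ * N + 27 / 2 * t * (N : ℝ) ^ 2 / V := by rw [hκ]; ring
  rw [hexp]
  have hN0 : (0 : ℝ) ≤ N := Nat.cast_nonneg N
  by_cases h1 : (N : ℝ) ≤ A * V
  · refine le_add_right (le_add_right ?_)
    rw [← mul_assoc, ← ENNReal.ofReal_mul (Real.exp_nonneg _), mul_div_assoc', ← Real.exp_add]
    refine mul_le_mul_left (ENNReal.ofReal_le_ofReal (div_le_div_of_nonneg_right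
      (Real.exp_le_exp.2 ?_) (by positivity))) _
    have : (N : ℝ) ^ 2 / V ≤ A ^ 2 * V := by
      rw [div_le_iff₀ hV0]; nlinarith
    have := mul_le_mul_of_nonneg_left this (by positivity : (0 : ℝ) ≤ 27 / 2 * t)
    rw [mul_div_assoc]
    nlinarith
  · by_cases h2 : (N : ℝ) ≤ K1 * V
    · refine le_add_right (le_add_left ?_)
      rw [← mul_assoc, ← ENNReal.ofReal_mul (Real.exp_nonneg _), mul_div_assoc', ← Real.exp_add]
      refine mul_le_mul_left (ENNReal.ofReal_le_ofReal (div_le_div_of_nonneg_right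
        (Real.exp_le_exp.2 ?_) (by positivity))) _
      have h3 : (N : ℝ) ^ 2 / V ≤ K1 * N := by
        rw [div_le_iff₀ hV0]; nlinarith
      have h4 := mul_le_mul_of_nonneg_left h3 (by positivity : (0 : ℝ) ≤ 27 / 2 * t)
      have h5 : 0 ≤ s * ((N : ℝ) - A * V) := mul_nonneg hs0 (by linarith [not_le.1 h1])
      have h6 : (μ + h) * N = μ * N + s * N + 27 / 2 * t * K1 * N := by rw [← hsum]; ring
      rw [mul_div_assoc]
      nlinarith
    · refine le_add_left ?_
      have hQ : Q (radial (potC c)) (box R) (Fin N) ≤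
          ENNReal.ofReal (Real.exp (-(27 * (N : ℝ) ^ 2 / V - D * N))) * volume (box (R : ℝ)) ^ N := by
        refine (Q_le_of_ae_le (ι := Fin N) fun x hx hxA => ?_).trans_eq (by rw [Fintype.card_fin])
        have hbase := hD c hc le_rfl x hx
        have hc2 := card_sq_le (cell 1 ∘ x) (Fintype.piFinset fun _ => Finset.Icc (0 : ℤ) R)
          (fun i => by
            simp only [Fintype.mem_piFinset, Finset.mem_Icc, Function.comp_apply, cell,
              Nat.cast_one, mul_one]
            intro a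
            exact ⟨Int.floor_nonneg.2 (hxA i a).1, Int.floor_le_iff.2 (by
              push_cast; linarith [(hxA i a).2])⟩)
        simp only [Fintype.card_piFinset, Int.card_Icc, Finset.prod_const, Finset.card_univ,
          Fintype.card_fin, sub_zero] at hc2 hbase
        rw [show ((R : ℤ) + 1).toNat = R + 1 by omega] at hc2
        push_cast at hc2
        have h8 : ((R : ℝ) + 1) ^ 3 ≤ 8 * V := by
          rw [hV, show (8 : ℝ) * (R : ℝ) ^ 3 = (2 * R) ^ 3 by ring]
          gcongr; linarith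
        have hS := samePairs_nonneg (cell 1 ∘ x)
        have h9 : 27 * (N : ℝ) ^ 2 / V ≤ 216 * samePairs (cell 1 ∘ x) := by
          rw [div_le_iff₀ hV0]
          nlinarith [mul_le_mul_of_nonneg_right h8 hS]
        linarith
      refine (mul_le_mul_right hQ _).trans ?_
      rw [volume_box (by positivity), ← ENNReal.ofReal_pow (by positivity),
        ← ENNReal.ofReal_mul (Real.exp_nonneg _), ← ENNReal.ofReal_mul (by positivity),
        ← ENNReal.ofReal_mul (by positivity)]
      refine ENNReal.ofReal_le_ofReal ?_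
      rw [Real.exp_zero, mul_one, ← hV]
      rw [show Real.exp (μ * N + 27 / 2 * t * (N : ℝ) ^ 2 / V) / N.factorial *
        (Real.exp (-(27 * (N : ℝ) ^ 2 / V - D * N)) * V ^ N) =
        V ^ N / N.factorial * Real.exp (μ * N + 27 / 2 * t * (N : ℝ) ^ 2 / V +
          -(27 * (N : ℝ) ^ 2 / V - D * N)) by
            rw [Real.exp_add (μ * N + 27 / 2 * t * (N : ℝ) ^ 2 / V)]; ring]
      refine mul_le_mul_of_nonneg_left (Real.exp_le_exp.2 ?_) (by positivity)
      have h3 : K1 * V < N := not_le.1 h2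
      have h4 : V < N := lt_of_le_of_lt (le_mul_of_one_le_left hV0.le hK1_1) h3
      have h5 : K1 * (N : ℝ) ≤ (N : ℝ) ^ 2 / V := by
        rw [le_div_iff₀ hV0]; nlinarith
      have h6 : t * ((N : ℝ) ^ 2 / V) ≤ 1 * ((N : ℝ) ^ 2 / V) :=
        mul_le_mul_of_nonneg_right ht1 (by positivity)
      have h7 := mul_le_mul_of_nonneg_right hK1_2 hN0
      simp only [mul_div_assoc]
      nlinarith

theorem block_bound (hc : Good c) {μ ρ δ : ℝ} (hρ : HasDerivAt (pres c) ρ μ) (hρ0 : 0 ≤ ρ)
    (hδ : 0 < δ) :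
    ∃ t s : ℝ, 0 < t ∧ t ≤ 1 ∧ 0 ≤ s ∧ ∀ R : ℕ, 1 ≤ R →
      Xi (radial fun r => potC c r - 27 * t / (R : ℝ) ^ 3) (μ + 27 / 2 * t / (R : ℝ) ^ 3) (box R) ≤
        ENNReal.ofReal (Real.exp (Real.log 3 + 27 / 2 * t * (ρ + δ) ^ 2 * (R : ℝ) ^ 3 +
          ((R : ℝ) + 1) ^ 3 * pres c μ + (((R : ℝ) + 1) ^ 3 - (R : ℝ) ^ 3) * (s * (ρ + δ)))) := by
  obtain ⟨D, hD0, hD⟩ := energy_potC_ge (∑' i, c i) 216
  set K1 : ℝ := max 1 ((μ + D + 1) / (27 / 2)) with hK1
  have hK1_1 : 1 ≤ K1 := le_max_left _ _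
  have hK1_2 : μ + D + 1 ≤ 27 / 2 * K1 := by
    have := le_max_right 1 ((μ + D + 1) / (27 / 2))
    rw [div_le_iff₀ (by norm_num)] at this
    linarith
  have hA : 0 < ρ + δ := by linarith
  -- choice of the increment
  have hev : ∀ᶠ h in 𝓝[>] (0 : ℝ), pres c (μ + h) ≤ pres c μ + (ρ + δ / 2) * h := by
    have h := (hρ.isLittleO.def (half_pos hδ))
    have h0 : Tendsto (fun h : ℝ => μ + h) (𝓝[>] 0) (𝓝 μ) :=
      (tendsto_const_nhds.add tendsto_id).mono_left nhdsWithin_le_nhds |>.trans (by simp)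
    filter_upwards [h0.eventually h, self_mem_nhdsWithin] with h hh hpos
    have hpos' : 0 < h := hpos
    simp only [add_sub_cancel_left, smul_eq_mul, Real.norm_eq_abs, abs_of_pos hpos'] at hh
    nlinarith [(abs_le.1 hh).2]
  obtain ⟨h, hh, hpos, hlt1⟩ := (hev.and (Ioo_mem_nhdsGT (zero_lt_one' ℝ))).exists
  obtain ⟨s, hs⟩ : ∃ s : ℝ, s = h * (ρ + δ / 2) / (ρ + δ) := ⟨_, rfl⟩
  have hs0 : 0 ≤ s := by
    have : (0:ℝ) ≤ ρ + δ / 2 := by linarith
    rw [hs]; positivity
  have hsA : s * (ρ + δ) = h * (ρ + δ / 2) := by rw [hs]; exact div_mul_cancel₀ _ hA.ne'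
  have hsh : s < h := by
    rw [hs, div_lt_iff₀ hA]; exact mul_lt_mul_of_pos_left (by linarith) hpos
  obtain ⟨t, ht⟩ : ∃ t : ℝ, t = (h - s) / (27 / 2 * K1) := ⟨_, rfl⟩
  have ht0 : 0 < t := by
    have : 0 < h - s := sub_pos.2 hsh
    rw [ht]; positivity
  have hsum : s + 27 / 2 * t * K1 = h := by rw [ht]; field_simp; ring
  have ht1 : t ≤ 1 := by
    rw [ht, div_le_one (by positivity)]; linarith
  refine ⟨t, s, ht0, ht1, hs0, fun R hR => ?_⟩
  have hR1 : (1 : ℝ) ≤ R := by exact_mod_cast hR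
  set V : ℝ := (R : ℝ) ^ 3 with hV
  have hV0 : 0 < V := by positivity
  set A : ℝ := ρ + δ with hAdef
  set κ : ℝ := 27 * t / V with hκ
  let T : ℝ → ℕ → ℝ≥0∞ := fun ν N =>
    ENNReal.ofReal (Real.exp (ν * N) / N.factorial) * Q (radial (potC c)) (box R) (Fin N)
  let P3 : ℕ → ℝ≥0∞ := fun N =>
    ENNReal.ofReal ((V * Real.exp 0) ^ N / N.factorial) * ENNReal.ofReal (Real.exp (-V))
  have hterm : ∀ N : ℕ, ENNReal.ofReal (Real.exp ((μ + 27 / 2 * t / V) * N) / N.factorial) *
      Q (radial fun r => potC c r - κ) (box R) (Fin N) ≤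
      ENNReal.ofReal (Real.exp (27 / 2 * t * A ^ 2 * V)) * T μ N +
        ENNReal.ofReal (Real.exp (-(s * A * V))) * T (μ + h) N + P3 N := fun N =>
    block_term_le hc hR1 hV hκ hD hK1_1 hK1_2 ht0 ht1 hs0 hA hsum N
  refine (ENNReal.tsum_le_tsum hterm).trans ?_
  rw [ENNReal.tsum_add, ENNReal.tsum_add, ENNReal.tsum_mul_left, ENNReal.tsum_mul_left]
  have hP3 : ∑' N, P3 N = 1 := by
    simp only [P3]
    rw [ENNReal.tsum_mul_right, tsum_ofReal_exp hV0.le, ← ENNReal.ofReal_mul (Real.exp_nonneg _),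
      ← Real.exp_add, Real.exp_zero, mul_one, add_neg_cancel, Real.exp_zero, ENNReal.ofReal_one]
  have hT : ∀ ν, ∑' N, T ν N = ENNReal.ofReal (Real.exp (lam c ν R)) := fun ν =>
    Xi_eq_exp_lam hc ν (R : ℝ)
  rw [hP3, hT, hT, ← ENNReal.ofReal_mul (Real.exp_nonneg _), ← ENNReal.ofReal_mul (Real.exp_nonneg _),
    ← ENNReal.ofReal_one, ← ENNReal.ofReal_add (by positivity) (by positivity),
    ← ENNReal.ofReal_add (by positivity) (by positivity)]
  refine ENNReal.ofReal_le_ofReal ?_
  set B : ℝ := 27 / 2 * t * A ^ 2 * V + ((R : ℝ) + 1) ^ 3 * pres c μ +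
    (((R : ℝ) + 1) ^ 3 - V) * (s * A) with hB
  have hd : 0 ≤ ((R : ℝ) + 1) ^ 3 - V := by
    rw [hV, sub_nonneg]; gcongr; linarith
  have hP0 := pres_nonneg hc μ
  have hsA0 : 0 ≤ s * A := mul_nonneg hs0 hA.le
  have hB0 : 0 ≤ B := by positivity
  have b1 : Real.exp (27 / 2 * t * A ^ 2 * V) * Real.exp (lam c μ R) ≤ Real.exp B := by
    rw [← Real.exp_add, Real.exp_le_exp, hB]
    nlinarith [lam_le_pres hc μ R, mul_nonneg hd hsA0]
  have b2 : Real.exp (-(s * A * V)) * Real.exp (lam c (μ + h) R) ≤ Real.exp B := by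
    rw [← Real.exp_add, Real.exp_le_exp, hB]
    have h1 : pres c (μ + h) ≤ pres c μ + s * A := by
      rw [hsA]; linarith
    have h2 := mul_le_mul_of_nonneg_left h1 (by positivity : (0 : ℝ) ≤ ((R : ℝ) + 1) ^ 3)
    have h3 : 0 ≤ 27 / 2 * t * A ^ 2 * V := by positivity
    nlinarith [lam_le_pres hc (μ + h) R]
  have b3 : (1 : ℝ) ≤ Real.exp B := Real.one_le_exp hB0
  calc _ ≤ 3 * Real.exp B := by linarith
    _ = Real.exp (Real.log 3 + B) := by
        rw [Real.exp_add (Real.log 3) B, Real.exp_log (by norm_num : (0 : ℝ) < 3)]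
    _ = _ := by rw [hB]; ring_nf

theorem global_bound (hc : Good c) (μ : ℝ) {t : ℝ} (ht : 0 ≤ t) (ht1 : t ≤ 1) :
    ∃ K2 : ℝ, 0 ≤ K2 ∧ ∀ m : ℕ, ∀ B : ℝ, 0 ≤ B →
      Xi (radial fun r => potC c r - 27 * t / ((m + 1 : ℕ) : ℝ) ^ 3)
        (μ + 27 / 2 * t / ((m + 1 : ℕ) : ℝ) ^ 3) (box (m + 1 : ℕ)) ≤ ENNReal.ofReal (Real.exp B) →
      pres (bump c m t) μ ≤ eta c (m + 1) * K2 + B / ((m + 1 : ℕ) : ℝ) ^ 3 := by
  classical
  obtain ⟨D, hD0, hD⟩ := energy_potC_ge ((∑' i, c i) + 1) 1
  refine ⟨Real.exp (μ + D), (Real.exp_pos _).le, fun m B hB0 hB => ?_⟩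
  set K2 := Real.exp (μ + D) with hK2
  set R := m + 1 with hR
  set c' := bump c m t with hc'def
  have hc' : Good c' := good_bump hc m ht
  have hn1 : (∑' i, c' i) ≤ (∑' i, c i) + 1 := by rw [tsum_bump hc]; linarith
  have hRpos : 0 < R := Nat.succ_pos m
  have hR0 : (0 : ℝ) < R := by exact_mod_cast hRpos
  set κ : ℝ := 27 * t / (R : ℝ) ^ 3 with hκ
  set μ' : ℝ := μ + 27 / 2 * t / (R : ℝ) ^ 3 with hμ'
  have hη := eta_nonneg hc R
  have key : ∀ n : ℕ, 1 ≤ n → lam c' μ ((R * n : ℕ) : ℝ) ≤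
      Real.log (2 * (R : ℝ) ^ 3) + eta c R * K2 * ((R * n : ℕ) : ℝ) ^ 3 + ((n : ℝ) + 2) ^ 3 * B := by
    intro n _
    set L : ℕ := R * n with hL
    set V : ℝ := (L : ℝ) ^ 3 with hV
    have hV0 : 0 ≤ V := by positivity
    set C1 : ℝ := eta c R * K2 * V with hC1
    have hmeasW : ∀ u, Measurable fun p : E3 × E3 => blockW c κ R u p.1 p.2 := by
      intro u
      have hS : MeasurableSet {p : E3 × E3 | blk R u p.1 = blk R u p.2} := by
        have hmb : Measurable (blk R u) := by
          refine measurable_to_countable' fun q => ?_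
          exact measurableSet_blk R u q
        exact measurableSet_eq_fun (hmb.comp measurable_fst) (hmb.comp measurable_snd)
      exact Measurable.ite hS
        ((measurable_radial (potC_measurable hc)).sub_const κ) measurable_const
    have hQ : ∀ N : ℕ, Q (radial (potC c')) (box L) (Fin N) ≤
        ENNReal.ofReal (Real.exp (D * N - K2 * V)) * volume (box (L : ℝ)) ^ N +
        ∑ u : Fin 3 → Fin R, ENNReal.ofReal (Real.exp (C1 + 27 / 2 * t / (R : ℝ) ^ 3 * N)) *
          Q (blockW c κ R u) (box L) (Fin N) := by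
      intro N
      have hmU : ∀ u, Measurable fun x : Fin N → E3 =>
          ENNReal.ofReal (Real.exp (-energy (blockW c κ R u) x)) :=
        fun u => (measurable_energy (hmeasW u)).neg.exp.ennreal_ofReal
      have hrhs : (∫⁻ x in Set.univ.pi (fun _ : Fin N => box (L : ℝ)),
          (ENNReal.ofReal (Real.exp (D * N - K2 * V)) +
            ∑ u : Fin 3 → Fin R, ENNReal.ofReal (Real.exp (C1 + 27 / 2 * t / (R : ℝ) ^ 3 * N)) *
              ENNReal.ofReal (Real.exp (-energy (blockW c κ R u) x)))) =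
          ENNReal.ofReal (Real.exp (D * N - K2 * V)) * volume (box (L : ℝ)) ^ N +
          ∑ u : Fin 3 → Fin R, ENNReal.ofReal (Real.exp (C1 + 27 / 2 * t / (R : ℝ) ^ 3 * N)) *
            Q (blockW c κ R u) (box L) (Fin N) := by
        rw [lintegral_add_left measurable_const, setLIntegral_const, volume_pi_pi,
          lintegral_finsetSum _ fun u _ => (hmU u).const_mul _]
        simp only [Finset.prod_const, Finset.card_univ, Fintype.card_fin,
          lintegral_const_mul' _ _ ENNReal.ofReal_ne_top]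
        rfl
      rw [← hrhs]
      refine setLIntegral_mono_ae' (MeasurableSet.univ_pi fun _ => measurableSet_box _) ?_
      filter_upwards [ae_injective (Fin N)] with x hx hxA
      have hbase := hD c' hc' hn1 x hx
      simp only [Fintype.card_fin, one_mul] at hbase
      by_cases hS : samePairs (cell 1 ∘ x) ≤ K2 * V
      · obtain ⟨u, hu⟩ := exists_good_shift hc hRpos x
        refine le_add_left (le_trans ?_ (Finset.single_le_sum (f := fun u =>
          ENNReal.ofReal (Real.exp (C1 + 27 / 2 * t / (R : ℝ) ^ 3 * N)) *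
            ENNReal.ofReal (Real.exp (-energy (blockW c κ R u) x))) (fun u _ => zero_le)
          (Finset.mem_univ u)))
        rw [← ENNReal.ofReal_mul (Real.exp_nonneg _), ← Real.exp_add]
        refine ENNReal.ofReal_le_ofReal (Real.exp_le_exp.2 ?_)
        have h1 := energy_bump_ge hc hR ht u x
        rw [Fintype.card_fin] at h1
        have h2 := mul_le_mul_of_nonneg_left hS hη
        rw [hC1]
        linarith
      · refine le_add_right (ENNReal.ofReal_le_ofReal (Real.exp_le_exp.2 ?_))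
        linarith [not_le.1 hS]
    have hmain : Xi (radial (potC c')) μ (box L) ≤
        1 + ∑ u : Fin 3 → Fin R, ENNReal.ofReal (Real.exp C1) * Xi (blockW c κ R u) μ' (box L) := by
      unfold Xi
      calc _ ≤ ∑' N : ℕ, (ENNReal.ofReal (Real.exp (μ * N) / N.factorial) *
            (ENNReal.ofReal (Real.exp (D * N - K2 * V)) * volume (box (L : ℝ)) ^ N) +
            ∑ u : Fin 3 → Fin R, ENNReal.ofReal (Real.exp C1) *
              (ENNReal.ofReal (Real.exp (μ' * N) / N.factorial) *
                Q (blockW c κ R u) (box L) (Fin N))) := by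
            refine ENNReal.tsum_le_tsum fun N => (mul_le_mul_right (hQ N) _).trans (le_of_eq ?_)
            rw [mul_add, Finset.mul_sum]
            congr 1
            refine Finset.sum_congr rfl fun u _ => ?_
            rw [← mul_assoc, ← mul_assoc, ← ENNReal.ofReal_mul (by positivity),
              ← ENNReal.ofReal_mul (Real.exp_nonneg _)]
            congr 2
            rw [Real.exp_add, hμ', add_mul, Real.exp_add]
            ring
        _ = _ := by
            rw [ENNReal.tsum_add, Summable.tsum_finsetSum fun _ _ => ENNReal.summable]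
            congr 1
            · have : ∀ N : ℕ, ENNReal.ofReal (Real.exp (μ * N) / N.factorial) *
                  (ENNReal.ofReal (Real.exp (D * N - K2 * V)) * volume (box (L : ℝ)) ^ N) =
                  ENNReal.ofReal ((V * Real.exp (μ + D)) ^ N / N.factorial) *
                    ENNReal.ofReal (Real.exp (-(K2 * V))) := by
                intro N
                rw [volume_box (Nat.cast_nonneg L), ← hV, ← ENNReal.ofReal_pow hV0,
                  ← ENNReal.ofReal_mul (Real.exp_nonneg _), ← ENNReal.ofReal_mul (by positivity),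
                  ← ENNReal.ofReal_mul (by positivity)]
                congr 1
                rw [sub_eq_add_neg, Real.exp_add, mul_pow, ← Real.exp_nat_mul,
                  show (N : ℝ) * (μ + D) = μ * N + D * N by ring, Real.exp_add]
                ring
              simp_rw [this]
              rw [ENNReal.tsum_mul_right, tsum_ofReal_exp hV0,
                ← ENNReal.ofReal_mul (Real.exp_nonneg _), ← Real.exp_add, hK2,
                show V * Real.exp (μ + D) + -(Real.exp (μ + D) * V) = 0 by ring,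
                Real.exp_zero, ENNReal.ofReal_one]
            · refine Finset.sum_congr rfl fun u _ => ?_
              exact ENNReal.tsum_mul_left
    have hblocks : ∀ u : Fin 3 → Fin R,
        Xi (blockW c κ R u) μ' (box L) ≤ ENNReal.ofReal (Real.exp (((n : ℝ) + 2) ^ 3 * B)) := by
      intro u
      let P : Finset (Fin 3 → ℤ) := Fintype.piFinset fun _ => Finset.Icc (0 : ℤ) ((n : ℤ) + 1)
      let T : (Fin 3 → ℤ) → Set E3 := fun q => {x | blk R u x = q}
      have hTm : ∀ q ∈ P, MeasurableSet (T q) := fun q _ => measurableSet_blk R u q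
      have hd : (P : Set (Fin 3 → ℤ)).PairwiseDisjoint T := by
        intro q _ r _ hqr
        rw [Function.onFun, Set.disjoint_left]
        intro x h1 h2
        exact hqr (h1.symm.trans h2)
      have hsub : box (L : ℝ) ⊆ ⋃ q ∈ P, T q := by
        intro x hx
        refine Set.mem_iUnion₂.2 ⟨blk R u x, ?_, rfl⟩
        simp only [P, Fintype.mem_piFinset, Finset.mem_Icc]
        intro a
        have h0 : (0 : ℤ) ≤ cell 1 x a := by
          simpa [cell] using Int.floor_nonneg.2 (hx a).1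
        have h1 : cell 1 x a ≤ (R : ℤ) * n := by
          have : (⌊x a⌋ : ℝ) ≤ ((R : ℤ) * n : ℤ) := by
            refine (Int.floor_le _).trans ((hx a).2.trans (le_of_eq ?_))
            push_cast [hL]; rfl
          simpa [cell] using Int.cast_le.1 this
        have hu := (u a).2
        have hR' : (0 : ℤ) < R := by exact_mod_cast hRpos
        refine ⟨Int.ediv_nonneg (by positivity) hR'.le, ?_⟩
        show (cell 1 x a + ((u a : ℕ) : ℤ)) / (R : ℤ) ≤ (n : ℤ) + 1
        rw [← Int.lt_add_one_iff, Int.ediv_lt_iff_lt_mul hR']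
        have hu' : ((u a : ℕ) : ℤ) < R := by exact_mod_cast hu
        nlinarith
      have hwm : Measurable fun p : E3 × E3 => radial (fun r => potC c r - κ) p.1 p.2 :=
        measurable_radial ((potC_measurable hc).sub_const κ)
      have hcongr : Xi (blockW c κ R u) μ' (⋃ q ∈ P, T q) =
          Xi (within P T (radial fun r => potC c r - κ)) μ' (⋃ q ∈ P, T q) := by
        refine Xi_congr μ' (Finset.measurableSet_biUnion P hTm) fun a ha b hb => ?_
        obtain ⟨q, hq, haq⟩ := Set.mem_iUnion₂.1 ha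
        unfold blockW within
        by_cases hab : blk R u a = blk R u b
        · rw [if_pos hab, if_pos ⟨q, hq, haq, hab.symm.trans haq⟩]
          rfl
        · rw [if_neg hab, if_neg]
          rintro ⟨r, _, h1, h2⟩
          exact hab (Eq.trans h1 (Eq.symm h2))
      refine (Xi_mono_set _ μ' hsub).trans ?_
      rw [hcongr, Xi_within P T hTm hd hwm μ']
      refine (Finset.prod_le_prod' (g := fun _ => ENNReal.ofReal (Real.exp B)) fun q _ => ?_).trans ?_
      · let v : E3 := WithLp.toLp 2 fun a => ((q a * (R : ℤ) - (u a : ℕ) : ℤ) : ℝ)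
        have hsubT : T q ⊆ (fun a => a + v) '' box (R : ℝ) := by
          intro x hx
          refine ⟨x - v, fun a => ?_, sub_add_cancel x v⟩
          have hq : (cell 1 x a + ((u a : ℕ) : ℤ)) / (R : ℤ) = q a := congrFun hx a
          have hR' : (0 : ℤ) < R := by exact_mod_cast hRpos
          have h1 := Int.ediv_mul_le (cell 1 x a + ((u a : ℕ) : ℤ)) hR'.ne'
          have h2 := Int.lt_ediv_add_one_mul_self (cell 1 x a + ((u a : ℕ) : ℤ)) hR'
          rw [hq] at h1 h2
          have hf : cell 1 x a = ⌊x a⌋ := by simp [cell]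
          rw [hf] at h1 h2
          have g1 : ((q a * (R : ℤ) - (u a : ℕ) : ℤ) : ℝ) ≤ x a :=
            le_trans (Int.cast_le.2 (by linarith)) (Int.floor_le _)
          have g2 : x a < ((q a * (R : ℤ) - (u a : ℕ) + (R : ℤ) : ℤ) : ℝ) :=
            Int.floor_lt.1 (by linarith)
          simp only [PiLp.sub_apply, v, Set.mem_Icc]
          push_cast at g1 g2 ⊢
          constructor <;> linarith
        refine (Xi_mono_set _ μ' hsubT).trans ?_
        rw [Xi_translate _ (radial_add _)]
        exact hB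
      · rw [Finset.prod_const, ← ENNReal.ofReal_pow (Real.exp_nonneg _), ← Real.exp_nat_mul]
        refine le_of_eq ?_
        congr 2
        simp [P, Int.card_Icc]
        norm_cast
        left; ring
    have hsum := hmain.trans (add_le_add le_rfl (Finset.sum_le_sum fun u _ =>
      mul_le_mul_right (hblocks u) _))
    rw [Finset.sum_const, nsmul_eq_mul, ← ENNReal.ofReal_mul (Real.exp_nonneg _), ← Real.exp_add,
      Xi_eq_exp_lam hc', ← ENNReal.ofReal_natCast, ← ENNReal.ofReal_mul (Nat.cast_nonneg _),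
      ← ENNReal.ofReal_one, ← ENNReal.ofReal_add zero_le_one (by positivity),
      ENNReal.ofReal_le_ofReal_iff (by positivity)] at hsum
    simp only [Finset.card_univ, Fintype.card_fun, Fintype.card_fin, Nat.cast_pow] at hsum
    rw [← Real.exp_le_exp, add_assoc, Real.exp_add, Real.exp_log (by positivity)]
    refine hsum.trans ?_
    have h1 : 1 ≤ (R : ℝ) ^ 3 * Real.exp (C1 + ((n : ℝ) + 2) ^ 3 * B) := by
      refine one_le_mul_of_one_le_of_one_le (one_le_pow₀ (by exact_mod_cast hRpos)) (Real.one_le_exp ?_)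
      have : 0 ≤ C1 := by rw [hC1]; positivity
      positivity
    rw [hC1] at *
    linarith
  have hlim1 : Tendsto (fun n : ℕ => lam c' μ ((R * n : ℕ) : ℝ) / ((R * n : ℕ) : ℝ) ^ 3) atTop
      (𝓝 (pres c' μ)) :=
    (tendsto_pres hc' μ).comp (tendsto_natCast_atTop_atTop.comp (tendsto_id.const_mul_atTop' hRpos))
  have hlim2 : Tendsto (fun n : ℕ => Real.log (2 * (R : ℝ) ^ 3) / ((R : ℝ) * n) ^ 3 + eta c R * K2 +
      (1 + 2 / (n : ℝ)) ^ 3 * (B / (R : ℝ) ^ 3)) atTop (𝓝 (eta c R * K2 + B / (R : ℝ) ^ 3)) := by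
    have h1 : Tendsto (fun n : ℕ => Real.log (2 * (R : ℝ) ^ 3) / ((R : ℝ) * n) ^ 3) atTop (𝓝 0) :=
      tendsto_const_nhds.div_atTop ((tendsto_pow_atTop (by norm_num)).comp
        (tendsto_natCast_atTop_atTop.const_mul_atTop hR0))
    have h2 : Tendsto (fun n : ℕ => (2 : ℝ) / (n : ℝ)) atTop (𝓝 0) :=
      tendsto_const_div_atTop_nhds_zero_nat 2
    simpa using (h1.add_const (eta c R * K2)).add (((h2.const_add 1).pow 3).mul_const (B / (R : ℝ) ^ 3))
  refine le_of_tendsto_of_tendsto hlim1 hlim2 ?_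
  filter_upwards [eventually_ge_atTop 1] with n hn
  have hn0 : (0 : ℝ) < n := by exact_mod_cast hn
  push_cast
  rw [div_le_iff₀ (by positivity)]
  have := key n hn
  push_cast at this
  refine this.trans (le_of_eq ?_)
  field_simp

theorem pres_bump_le (hc : Good c) {μ ρ δ : ℝ} (hρ : HasDerivAt (pres c) ρ μ) (hρ0 : 0 ≤ ρ)
    (hδ : 0 < δ) :
    ∃ t : ℝ, 0 < t ∧ ∀ η : ℝ, 0 < η → ∀ᶠ m : ℕ in atTop,
      pres (bump c m t) μ ≤ pres c μ + 27 / 2 * t * (ρ + δ) ^ 2 + η := by
  obtain ⟨t, s, ht0, ht1, hs0, hblock⟩ := block_bound hc hρ hρ0 hδ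
  obtain ⟨K2, _, hglob⟩ := global_bound hc μ ht0.le ht1
  refine ⟨t, ht0, fun η hη => ?_⟩
  set P0 := pres c μ with hP0
  have hP0' : 0 ≤ P0 := pres_nonneg hc μ
  have hlim : Tendsto (fun R : ℕ => eta c R * K2 + Real.log 3 / (R : ℝ) ^ 3 +
      27 / 2 * t * (ρ + δ) ^ 2 + (1 + 1 / (R : ℝ)) ^ 3 * P0 +
      ((1 + 1 / (R : ℝ)) ^ 3 - 1) * (s * (ρ + δ))) atTop (𝓝 (P0 + 27 / 2 * t * (ρ + δ) ^ 2)) := by
    have h1 : Tendsto (fun R : ℕ => Real.log 3 / (R : ℝ) ^ 3) atTop (𝓝 0) :=
      tendsto_const_nhds.div_atTop ((tendsto_pow_atTop (by norm_num)).comp tendsto_natCast_atTop_atTop)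
    have h2 : Tendsto (fun R : ℕ => (1 + 1 / (R : ℝ)) ^ 3) atTop (𝓝 1) := by
      simpa using ((tendsto_const_div_atTop_nhds_zero_nat (1 : ℝ)).const_add 1).pow 3
    have := (((((tendsto_eta hc).mul_const K2).add h1).add_const (27 / 2 * t * (ρ + δ) ^ 2)).add
      (h2.mul_const P0)).add ((h2.sub_const 1).mul_const (s * (ρ + δ)))
    convert this using 2
    ring
  have hev := ((tendsto_order.1 hlim).2 (P0 + 27 / 2 * t * (ρ + δ) ^ 2 + η) (by linarith))
  filter_upwards [(tendsto_add_atTop_nat 1).eventually hev] with m hm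
  have hb := hblock (m + 1) (Nat.le_add_left 1 m)
  set R : ℝ := ((m + 1 : ℕ) : ℝ) with hR
  have hR0 : 0 < R := by positivity
  have hd : 0 ≤ (R + 1) ^ 3 - R ^ 3 := by rw [sub_nonneg]; gcongr; linarith
  have hA : 0 ≤ ρ + δ := by linarith
  have hB0 : 0 ≤ Real.log 3 + 27 / 2 * t * (ρ + δ) ^ 2 * R ^ 3 + (R + 1) ^ 3 * P0 +
      ((R + 1) ^ 3 - R ^ 3) * (s * (ρ + δ)) := by
    have := Real.log_nonneg (show (1 : ℝ) ≤ 3 by norm_num)
    positivity
  refine ((hglob m _ hB0 hb).trans (le_of_eq ?_)).trans hm.le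
  simp only [add_assoc]
  field_simp
  ring

end Vale.Agent.P171
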