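import Mathlib
import Vale.Agent.P171.Lower
import Vale.Agent.P171.Upper
import Vale.Agent.P171.Ekeland

/-!
The parameter space and the kink of the pressure.
-/

open MeasureTheory Filter Topology
open scoped ENNReal

namespace Vale.Agent.P171

/-- Summable sequences with nonnegative entries, as a closed subset of `ℓ¹`. -/
def coneSet : Set (lp (fun _ : ℕ => ℝ) 1) := {c | ∀ i, 0 ≤ c i}

theorem summable_abs_coe (c : lp (fun _ : ℕ => ℝ) 1) : Summable fun i => |c i| := by
  have := (lp.memℓp c).summable (by simp : 0 < (1 : ℝ≥0∞).toReal)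
  simpa using this

theorem norm_eq_tsum_abs (c : lp (fun _ : ℕ => ℝ) 1) : ‖c‖ = ∑' i, |c i| := by
  rw [lp.norm_eq_tsum_rpow (by simp : 0 < (1 : ℝ≥0∞).toReal)]
  simp

theorem continuous_weighted (v : ℕ → ℝ) (hv : ∀ i, |v i| ≤ 1) :
    Continuous fun c : lp (fun _ : ℕ => ℝ) 1 => ∑' i, c i * v i := by
  have hs : ∀ c : lp (fun _ : ℕ => ℝ) 1, Summable fun i => c i * v i := fun c => by
    refine Summable.of_abs ((summable_abs_coe c).of_nonneg_of_le (fun i => abs_nonneg _) fun i => ?_)
    rw [abs_mul]; exact mul_le_of_le_one_right (abs_nonneg _) (hv i)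
  refine LipschitzWith.continuous (K := 1) (LipschitzWith.of_dist_le_mul fun c d => ?_)
  rw [Real.dist_eq, ← (hs c).tsum_sub (hs d), dist_eq_norm, norm_eq_tsum_abs, NNReal.coe_one, one_mul]
  have hle : ∀ i, |c i * v i - d i * v i| ≤ |(c - d) i| := fun i => by
    rw [← sub_mul, abs_mul, lp.coeFn_sub, Pi.sub_apply]
    exact mul_le_of_le_one_right (abs_nonneg _) (hv i)
  have hsd := (summable_abs_coe (c - d)).of_nonneg_of_le (fun i => abs_nonneg _) hle
  have h1 : |∑' i, (c i * v i - d i * v i)| ≤ ∑' i, |c i * v i - d i * v i| := by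
    have := norm_tsum_le_tsum_norm (f := fun i => c i * v i - d i * v i) (by simpa using hsd)
    simpa using this
  exact h1.trans (hsd.tsum_le_tsum hle (summable_abs_coe _))

theorem good_coe (c : coneSet) : Good (fun i => (c : lp (fun _ : ℕ => ℝ) 1) i) :=
  ⟨c.2, (summable_abs_coe c).congr fun i => abs_of_nonneg (c.2 i)⟩

theorem isClosed_coneSet : IsClosed coneSet := by
  have : coneSet = ⋂ i : ℕ, {c : lp (fun _ : ℕ => ℝ) 1 | 0 ≤ c i} := by
    ext c; simp [coneSet]
  rw [this]
  refine isClosed_iInter fun i => isClosed_le continuous_const ?_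
  have h := continuous_weighted (fun j => if j = i then 1 else 0) (fun j => by split_ifs <;> simp)
  simpa using! h

/-- The parameter space. -/
abbrev Param : Type := ℝ × coneSet

/-- The coefficients attached to a parameter. -/
noncomputable def coef (p : Param) : ℕ → ℝ := fun i => (p.2 : lp (fun _ : ℕ => ℝ) 1) i

theorem good_coef (p : Param) : Good (coef p) := good_coe p.2

theorem continuous_coef_weighted (v : ℕ → ℝ) (hv : ∀ i, |v i| ≤ 1) :
    Continuous fun p : Param => ∑' i, coef p i * v i :=
  (continuous_weighted v hv).comp (continuous_subtype_val.comp continuous_snd)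

theorem lsc_Xi (L : ℝ) :
    LowerSemicontinuous fun p : Param => Xi (radial (potC (coef p))) p.1 (box L) := by
  refine lowerSemicontinuous_tsum fun N => ?_
  rw [lowerSemicontinuous_iff_le_liminf]
  intro p₀
  have hmeas : ∀ p : Param, Measurable fun x : Fin N → E3 =>
      ENNReal.ofReal (Real.exp (p.1 * N) / N.factorial) *
        ENNReal.ofReal (Real.exp (-energy (radial (potC (coef p))) x)) := fun p =>
    ((measurable_energy (measurable_radial (potC_measurable (good_coef p)))).neg.exp.ennreal_ofReal).const_mul _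
  have hcont : ∀ x : Fin N → E3, Continuous fun p : Param =>
      ENNReal.ofReal (Real.exp (p.1 * N) / N.factorial) *
        ENNReal.ofReal (Real.exp (-energy (radial (potC (coef p))) x)) := by
    intro x
    have he : Continuous fun p : Param => energy (radial (potC (coef p))) x := by
      unfold energy
      refine (continuous_finsetSum _ fun i _ => continuous_finsetSum _ fun j _ => ?_).div_const _
      by_cases hij : i = j
      · simpa [hij] using continuous_const
      · simp only [hij, if_false, radial, potC, attr]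
        exact continuous_const.sub (continuous_coef_weighted _ fun m => by
          rw [abs_of_nonneg (stepFn_nonneg _ _)]; exact stepFn_le_one _ _)
    have h : Continuous fun p : Param => ENNReal.ofReal
        (Real.exp (p.1 * N) / N.factorial * Real.exp (-energy (radial (potC (coef p))) x)) :=
      ENNReal.continuous_ofReal.comp
        ((((continuous_fst.mul continuous_const).rexp).div_const _).mul he.neg.rexp)
    convert h using 1
    funext p
    rw [ENNReal.ofReal_mul (by positivity)]
  have hQ : ∀ p : Param, ENNReal.ofReal (Real.exp (p.1 * N) / N.factorial) *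
      Q (radial (potC (coef p))) (box L) (Fin N) =
      ∫⁻ x in Set.univ.pi (fun _ : Fin N => box L), ENNReal.ofReal (Real.exp (p.1 * N) / N.factorial) *
        ENNReal.ofReal (Real.exp (-energy (radial (potC (coef p))) x)) := fun p =>
    (lintegral_const_mul' _ _ ENNReal.ofReal_ne_top).symm
  simp_rw [hQ]
  calc _ = ∫⁻ x in Set.univ.pi (fun _ : Fin N => box L), liminf (fun p : Param =>
        ENNReal.ofReal (Real.exp (p.1 * N) / N.factorial) *
          ENNReal.ofReal (Real.exp (-energy (radial (potC (coef p))) x))) (𝓝 p₀) :=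
        lintegral_congr fun x => ((hcont x).tendsto p₀).liminf_eq.symm
    _ ≤ _ := lintegral_liminf_le hmeas

theorem lsc_pres : LowerSemicontinuous fun p : Param => pres (coef p) p.1 := by
  intro p₀ r hr
  obtain ⟨L, hL⟩ := exists_lt_of_lt_ciSup hr
  have hpos : (0 : ℝ) < ((L : ℝ) + 1) ^ 3 := by positivity
  rw [lt_div_iff₀ hpos] at hL
  have hX : ENNReal.ofReal (Real.exp (r * ((L : ℝ) + 1) ^ 3)) <
      Xi (radial (potC (coef p₀))) p₀.1 (box (L : ℕ)) := by
    rw [Xi_eq_exp_lam (good_coef p₀)]
    exact (ENNReal.ofReal_lt_ofReal_iff (Real.exp_pos _)).2 (Real.exp_lt_exp.2 hL)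
  filter_upwards [lsc_Xi (L : ℕ) p₀ _ hX] with p hp
  rw [Xi_eq_exp_lam (good_coef p), gt_iff_lt, ENNReal.ofReal_lt_ofReal_iff (Real.exp_pos _),
    Real.exp_lt_exp, ← lt_div_iff₀ hpos] at hp
  exact hp.trans_le (le_ciSup (bddAbove_pres (good_coef p) p.1) L)

theorem exists_kink : ∃ (c : ℕ → ℝ) (μ : ℝ), Good c ∧ ¬ DifferentiableAt ℝ (pres c) μ := by
  classical
  obtain ⟨a, ha⟩ : ∃ a : ℝ, a = 1 / (54000 * 27) := ⟨_, rfl⟩
  obtain ⟨ε, hε⟩ : ∃ ε : ℝ, ε = 1 / (54000 * 108000) := ⟨_, rfl⟩
  let f : Param → ℝ := fun p => pres (coef p) p.1 - a * (p.1 + 1 / 2000 * tailSum (coef p))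
  have htail : Continuous fun p : Param => tailSum (coef p) := by
    have := continuous_coef_weighted (fun m => if 7 ≤ m then 1 else 0)
      (fun m => by split_ifs <;> simp)
    convert this using 1
    funext p
    exact tsum_congr fun m => by split_ifs <;> simp
  have hflsc : LowerSemicontinuous f := by
    have hcont : Continuous fun p : Param => -(a * (p.1 + 1 / 2000 * tailSum (coef p))) :=
      (continuous_const.mul (continuous_fst.add (continuous_const.mul htail))).neg
    simpa only [f, sub_eq_add_neg] using! lsc_pres.add hcont.lowerSemicontinuous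
  have hfb : BddBelow (Set.range f) := by
    refine ⟨0, ?_⟩
    rintro _ ⟨p, rfl⟩
    have h1 := pres_lower (good_coef p) p.1
    have h0 := pres_nonneg (good_coef p) p.1
    simp only [f, ha]
    rw [sub_nonneg]
    by_cases hY : p.1 + 1 / 2000 * tailSum (coef p) ≤ 0
    · nlinarith
    · have : 0 < p.1 + 1 / 2000 * tailSum (coef p) := not_le.1 hY
      nlinarith
  have : CompleteSpace coneSet := isClosed_coneSet.completeSpace_coe
  have : Nonempty Param := ⟨(0, ⟨0, fun i => by simp⟩)⟩
  obtain ⟨p, hp⟩ := exists_approx_min hflsc hfb (show 0 < ε by rw [hε]; positivity)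
  obtain ⟨μ, c⟩ := p
  refine ⟨coef (μ, c), μ, good_coef _, fun hdiff => ?_⟩
  have hc : Good (coef (μ, c)) := good_coef _
  obtain ⟨P, hP⟩ : ∃ P : ℝ → ℝ, P = pres (coef (μ, c)) := ⟨_, rfl⟩
  rw [← hP] at hdiff
  obtain ⟨ρ, hd⟩ : ∃ ρ : ℝ, HasDerivAt P ρ μ := ⟨_, hdiff.hasDerivAt⟩
  -- one sided bounds on the derivative
  have hmu : ∀ ν : ℝ, P μ + a * (ν - μ) ≤ P ν + ε * |ν - μ| := by
    intro ν
    have h := hp (ν, c)
    have hdist : dist ((μ, c) : Param) (ν, c) = |ν - μ| := by
      simp [Prod.dist_eq, Real.dist_eq, abs_sub_comm μ ν]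
    rw [hdist] at h
    have hcoef : coef (ν, c) = coef (μ, c) := rfl
    simp only [f, hcoef] at h
    rw [hP]; linarith
  have hρhi : ρ ≤ a + ε := by
    by_contra hcon
    push Not at hcon
    have h := hd.isLittleO.def (show 0 < (ρ - (a + ε)) / 2 by linarith)
    have hev : ∀ᶠ ν in 𝓝[<] μ, ν < μ := self_mem_nhdsWithin
    obtain ⟨ν, hν1, hν2⟩ := ((h.filter_mono nhdsWithin_le_nhds).and hev).exists
    have h1 := hmu ν
    rw [abs_of_neg (sub_neg.2 hν2)] at h1
    simp only [smul_eq_mul, Real.norm_eq_abs, abs_of_neg (sub_neg.2 hν2)] at hν1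
    nlinarith [(abs_le.1 hν1).2]
  have hρlo : a - ε ≤ ρ := by
    by_contra hcon
    push Not at hcon
    have h := hd.isLittleO.def (show 0 < (a - ε - ρ) / 2 by linarith)
    have hev : ∀ᶠ ν in 𝓝[>] μ, μ < ν := self_mem_nhdsWithin
    obtain ⟨ν, hν1, hν2⟩ := ((h.filter_mono nhdsWithin_le_nhds).and hev).exists
    have h1 := hmu ν
    rw [abs_of_pos (sub_pos.2 hν2)] at h1
    simp only [smul_eq_mul, Real.norm_eq_abs, abs_of_pos (sub_pos.2 hν2)] at hν1
    nlinarith [(abs_le.1 hν1).2]
  have hρ0 : 0 ≤ ρ := by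
    have : ε ≤ a := by rw [ha, hε]; norm_num
    linarith
  have ha0 : 0 < a := by rw [ha]; positivity
  obtain ⟨t, ht, hup⟩ := pres_bump_le hc (hP ▸ hd) hρ0 ha0
  have hgain : ∀ η : ℝ, 0 < η → t * (a / 2000 - ε) ≤ 27 / 2 * t * (ρ + a) ^ 2 + η := by
    intro η hη
    obtain ⟨m, hm, hm7⟩ := ((hup η hη).and (eventually_ge_atTop 7)).exists
    let d : coneSet := ⟨(c : lp (fun _ : ℕ => ℝ) 1) + lp.single 1 m t, fun i => by
      have := c.2 i
      by_cases hi : i = m
      · subst hi; simp only [lp.coeFn_add, Pi.add_apply, lp.single_apply_self]; linarith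
      · simp only [lp.coeFn_add, Pi.add_apply, lp.single_apply_ne _ _ _ hi]; linarith⟩
    have hcd : coef (μ, d) = bump (coef (μ, c)) m t := by
      funext i
      by_cases hi : i = m
      · subst hi
        simp [coef, bump, d]
      · simp [coef, bump, d, hi]
    have hdist : dist ((μ, c) : Param) (μ, d) = t := by
      rw [Prod.dist_eq, dist_self, max_eq_right dist_nonneg, Subtype.dist_eq, dist_comm, dist_eq_norm]
      simp only [d, add_sub_cancel_left]
      rw [lp.norm_single (by norm_num), Real.norm_eq_abs, abs_of_pos ht]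
    have h := hp (μ, d)
    rw [hdist] at h
    have ht7 : tailSum (bump (coef (μ, c)) m t) = tailSum (coef (μ, c)) + t := by
      unfold tailSum bump
      have hs1 : Summable fun i => if 7 ≤ i then coef (μ, c) i else 0 :=
        hc.summable.of_nonneg_of_le (fun i => by split_ifs; exact hc.nonneg i; rfl)
          (fun i => by split_ifs; rfl; exact hc.nonneg i)
      have : ∀ i, (if 7 ≤ i then coef (μ, c) i + (if i = m then t else 0) else 0) =
          (if 7 ≤ i then coef (μ, c) i else 0) + (if i = m then t else 0) := by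
        intro i
        by_cases hi : i = m
        · subst hi; simp [hm7]
        · simp [hi]
      simp_rw [this]
      rw [hs1.tsum_add (hasSum_ite_eq m t).summable, tsum_ite_eq]
    simp only [f, hcd, ht7] at h
    linarith
  have hfinal : t * (a / 2000 - ε) ≤ 27 / 2 * t * (ρ + a) ^ 2 :=
    le_of_forall_pos_le_add hgain
  have h3 : (ρ + a) ^ 2 ≤ (3 * a) ^ 2 := by
    gcongr
    have : ε ≤ a := by rw [ha, hε]; norm_num
    linarith
  have h4 : 27 / 2 * (3 * a) ^ 2 < a / 2000 - ε := by rw [ha, hε]; norm_num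
  have h5 := mul_le_mul_of_nonneg_left h3 (by positivity : (0 : ℝ) ≤ 27 / 2 * t)
  nlinarith

end Vale.Agent.P171
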